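import Vale.Agent.P006.L.L1a
import Vale.Agent.P026.M.W1
import Vale.Agent.P026.M.PO1
import Vale.Agent.P026.M.GF

/-! P006 row L1, closed form. -/

namespace Vale.Agent.P006
open Vale.Agent.P026

theorem ktS : KTStmt := L1M.kt W1.bas

theorem kpS : KPStmt := L1M.kp W1.bas W1.cr W1.hd (gpoS W1.bas (po1S W1.bas) (gfS W1.bas))

end Vale.Agent.P006
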