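import Vale.Agent.P006.SL
import Vale.Agent.P026.M.W1
import Vale.Agent.P026.M.GPO

noncomputable section
open Complex Finset
open scoped Classical ComplexConjugate

namespace Vale.Agent.P006
open Vale.Agent.P026

namespace L2M

lemma mdv (hB : Bas) {g d : O} (hg : Prim g) : d ∈ dv g ↔ Prim d ∧ d ∣ g :=
  (memS hB).2 g d (hB.b2.ne g hg)

lemma msq (hB : Bas) {X : ℝ} {n : O} : n ∈ SQ X ↔ SP n ∧ N n ≤ X := (memS hB).1 X n

lemma N_le (hB : Bas) {a b : O} (hb : b ≠ 0) : N a ≤ N (a * b) := by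
  have h1 := hB.b1.N_one_le b hb
  have h0 : 0 ≤ N a := Nat.cast_nonneg _
  rw [hB.b1.N_mul]; nlinarith

lemma sq_of (hB : Bas) {X : ℝ} {n a b : O} (hn : n ∈ SQ X) (ha : Prim a) (e : a * b = n) :
    a ∈ SQ X := by
  obtain ⟨⟨h1, h2⟩, h3⟩ := (msq hB).1 hn
  subst e
  have hb : b ≠ 0 := by
    rintro rfl
    exact hB.b2.ne _ h1 (mul_zero a)
  exact (msq hB).2 ⟨⟨ha, h2.of_mul_left⟩, (N_le hB hb).trans h3⟩

/-- triples over `SQ X` as factorisations of the gcd -/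
lemma tri (hB : Bas) {X : ℝ} {g k1 k2 : O} (hg : Prim g) (h1 : Prim k1) (h2 : Prim k2)
    (hc : IsCoprime k1 k2) (m1 : g * k1 ∈ SQ X) (m2 : g * k2 ∈ SQ X) (F : O → O → O → ℂ) :
    (∑ f ∈ SQ X, ∑ a ∈ SQ X, ∑ b ∈ SQ X, if f * a = g * k1 ∧ f * b = g * k2 then F f a b else 0) =
      ∑ f ∈ dv g, ∑ c ∈ dv g, if f * c = g then F f (c * k1) (c * k2) else 0 := by
  have l1 : (∑ f ∈ SQ X, ∑ a ∈ SQ X, ∑ b ∈ SQ X,
      if f * a = g * k1 ∧ f * b = g * k2 then F f a b else 0) =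
      ∑ q ∈ (SQ X ×ˢ SQ X ×ˢ SQ X).filter
        (fun q => q.1 * q.2.1 = g * k1 ∧ q.1 * q.2.2 = g * k2), F q.1 q.2.1 q.2.2 := by
    rw [sum_filter]; simp only [sum_product]
  have l2 : (∑ f ∈ dv g, ∑ c ∈ dv g, if f * c = g then F f (c * k1) (c * k2) else 0) =
      ∑ q ∈ (dv g ×ˢ dv g).filter (fun q => q.1 * q.2 = g), F q.1 (q.2 * k1) (q.2 * k2) := by
    rw [sum_filter]; simp only [sum_product]
  rw [l1, l2]
  symm
  refine sum_bij (fun p _ => (p.1, p.2 * k1, p.2 * k2)) ?_ ?_ ?_ ?_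
  · rintro ⟨f, c⟩ hp
    simp only [mem_filter, mem_product] at hp ⊢
    obtain ⟨⟨a1, a2⟩, e⟩ := hp
    have pf := ((mdv hB hg).1 a1).1
    have pc := ((mdv hB hg).1 a2).1
    have e1 : f * (c * k1) = g * k1 := by rw [← mul_assoc, e]
    have e2 : f * (c * k2) = g * k2 := by rw [← mul_assoc, e]
    exact ⟨⟨sq_of hB m1 pf e1, sq_of hB m1 (hB.b2.mul _ _ pc h1) (by rw [mul_comm, e1]),
      sq_of hB m2 (hB.b2.mul _ _ pc h2) (by rw [mul_comm, e2])⟩, e1, e2⟩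
  · rintro ⟨f, c⟩ _ ⟨f', c'⟩ _ e
    simp only [Prod.mk.injEq] at e ⊢
    exact ⟨e.1, mul_right_cancel₀ (hB.b2.ne _ h1) e.2.1⟩
  · rintro ⟨f, a, b⟩ hp
    simp only [mem_filter, mem_product] at hp
    obtain ⟨⟨a1, -, -⟩, e1, e2⟩ := hp
    have pf := ((msq hB).1 a1).1.1
    obtain ⟨u, v, huv⟩ := hc
    have e : f * (u * a + v * b) = g := by linear_combination u * e1 + v * e2 + g * huv
    have pc : Prim (u * a + v * b) := hB.b2.cancel _ _ pf (e ▸ hg)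
    refine ⟨(f, u * a + v * b), ?_, ?_⟩
    · simp only [mem_filter, mem_product]
      exact ⟨⟨(mdv hB hg).2 ⟨pf, ⟨_, e.symm⟩⟩, (mdv hB hg).2 ⟨pc, ⟨f, by rw [mul_comm, e]⟩⟩⟩, e⟩
    · simp only [Prod.mk.injEq, true_and]
      constructor
      · apply mul_left_cancel₀ (hB.b2.ne _ pf); rw [← mul_assoc, e, e1]
      · apply mul_left_cancel₀ (hB.b2.ne _ pf); rw [← mul_assoc, e, e2]
  · intro p _
    rfl

lemma ext2 (hB : Bas) {g c : O} (hg : Prim g) (hc : c ∈ dv g) (φ : O → O → ℂ) :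
    (∑ a ∈ dv c, ∑ b ∈ dv c, if a * b = c then φ a b else 0) =
      ∑ a ∈ dv g, ∑ b ∈ dv g, if a * b = c then φ a b else 0 := by
  obtain ⟨pc, dc⟩ := (mdv hB hg).1 hc
  rw [← sum_product', ← sum_product', ← sum_filter, ← sum_filter]
  refine sum_congr ?_ fun _ _ => rfl
  ext ⟨a, b⟩
  simp only [mem_filter, mem_product, mdv hB hg, mdv hB pc]
  constructor
  · rintro ⟨⟨⟨a1, a2⟩, b1, b2⟩, e⟩
    exact ⟨⟨⟨a1, a2.trans dc⟩, b1, b2.trans dc⟩, e⟩
  · rintro ⟨⟨⟨a1, -⟩, b1, -⟩, e⟩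
    exact ⟨⟨⟨a1, ⟨b, e.symm⟩⟩, b1, ⟨a, by rw [mul_comm, e]⟩⟩, e⟩

lemma one (hB : Bas) {c : O} (pc : Prim c) (φ : O → ℂ) :
    ∑ a ∈ dv c, φ a = ∑ a ∈ dv c, ∑ b ∈ dv c, if a * b = c then φ a else 0 := by
  refine sum_congr rfl fun a ha => ?_
  obtain ⟨pa, b, e⟩ := (mdv hB pc).1 ha
  have pb : Prim b := hB.b2.cancel _ _ pa (e ▸ pc)
  rw [sum_eq_single b, if_pos e.symm]
  · intro b' _ hb
    rw [if_neg]
    intro e'
    exact hb (mul_left_cancel₀ (hB.b2.ne _ pa) (e'.trans e))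
  · intro h
    exact absurd ((mdv hB pc).2 ⟨pb, ⟨a, by rw [mul_comm, e]⟩⟩) h

lemma col (hB : Bas) {g : O} (hg : Prim g) (x : O) (φ : O → O → ℂ) :
    (∑ c ∈ dv g, if x * c = g then ∑ a ∈ dv g, ∑ b ∈ dv g, (if a * b = c then φ a b else 0) else 0) =
      ∑ a ∈ dv g, ∑ b ∈ dv g, if x * (a * b) = g then φ a b else 0 := by
  have : ∀ c, (if x * c = g then ∑ a ∈ dv g, ∑ b ∈ dv g, (if a * b = c then φ a b else 0) else 0) =
      ∑ a ∈ dv g, ∑ b ∈ dv g, if a * b = c then (if x * c = g then φ a b else 0) else 0 := by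
    intro c
    by_cases h : x * c = g <;> simp [h]
  simp_rw [this]
  rw [sum_comm]
  refine sum_congr rfl fun a ha => ?_
  rw [sum_comm]
  refine sum_congr rfl fun b hb => ?_
  rw [sum_ite_eq]
  split_ifs with h1 h2 h2
  · rfl
  · rfl
  · exact absurd ((mdv hB hg).2 ⟨hB.b2.mul _ _ ((mdv hB hg).1 ha).1 ((mdv hB hg).1 hb).1,
      ⟨x, by rw [mul_comm, h2]⟩⟩) h1
  · rfl

lemma sqf3 {g k1 k2 : O} (s1 : Squarefree (g * k1)) (s2 : Squarefree (g * k2))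
    (hc : IsCoprime k1 k2) : Squarefree (g * k1 * k2) := by
  rw [squarefree_mul_iff] at s2 ⊢
  exact ⟨s2.1.mul_left hc.isRelPrime, s1, s2.2.2⟩

lemma ki (hB : Bas) (hT : KTStmt) (hP : KPStmt) : KIStmt := by
  intro M X n1 n2 hM m1 m2
  obtain ⟨⟨p1, s1⟩, -⟩ := (msq hB).1 m1
  obtain ⟨⟨p2, s2⟩, -⟩ := (msq hB).1 m2
  obtain ⟨g, k1, k2, hg, h1, rfl, rfl, hc⟩ := hB.b2.gcd n1 n2 p1
  have h2 : Prim k2 := hB.b2.cancel _ _ hg p2
  have s3 := sqf3 s1 s2 hc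
  have sub : ∀ f c, f * c = g → Squarefree (c * k1 * k2) := by
    intro f c e
    rw [← e, mul_assoc f, mul_assoc f] at s3
    exact s3.of_mul_right
  set H : O → O → ℂ := fun e f => mu e * (N f : ℂ) *
    (cub (e * f ^ 2) k1 * conj (cub (e * f ^ 2) k2)) * Tk (M / (N e * N f ^ 2)) k1 k2 with hH
  rw [tri hB hg h1 h2 hc m1 m2 (fun f a b => (N f : ℂ) * (cub (f ^ 2) a * conj (cub (f ^ 2) b)) *
    Tk (M / N f ^ 2) a b), tri hB hg h1 h2 hc m1 m2 (fun _ a b => Pk M a b)]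
  have L : ∀ f ∈ dv g, ∀ c ∈ dv g, (if f * c = g then (N f : ℂ) *
      (cub (f ^ 2) (c * k1) * conj (cub (f ^ 2) (c * k2))) * Tk (M / N f ^ 2) (c * k1) (c * k2) else 0) =
      if f * c = g then ∑ a ∈ dv g, ∑ b ∈ dv g, (if a * b = c then H a f else 0) else 0 := by
    intro f hf c hc'
    split_ifs with e
    · have pf := ((mdv hB hg).1 hf).1
      have pc := ((mdv hB hg).1 hc').1
      have hN : 0 < N f := lt_of_lt_of_le one_pos (hB.b1.N_one_le f (hB.b2.ne _ pf))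
      rw [← ext2 hB hg hc' (fun a _ => H a f), ← one hB pc (fun a => H a f),
        hT (M / N f ^ 2) c k1 k2 (by positivity) pc h1 h2 (sub f c e), mul_sum]
      have sg : Squarefree (f * c) := e ▸ s1.of_mul_left
      have cp : IsCoprime (f ^ 2) c := ((squarefree_mul_iff.1 sg).1.isCoprime).pow_left
      have hu : cub (f ^ 2) c * conj (cub (f ^ 2) c) = 1 := by
        rw [mul_conj, normSq_eq_norm_sq, hB.b6.norm _ _ cp]; simp
      refine sum_congr rfl fun a _ => ?_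
      simp only [hH]
      rw [hB.b6.mul_r _ _ _ (hB.b2.ne _ pc) (hB.b2.ne _ h1),
        hB.b6.mul_r _ _ _ (hB.b2.ne _ pc) (hB.b2.ne _ h2),
        hB.b6.mul_l a _ k1 (hB.b2.cop _ h1), hB.b6.mul_l a _ k2 (hB.b2.cop _ h2), div_div,
        mul_comm (N f ^ 2) (N a), map_mul, map_mul]
      linear_combination (N f * mu a * cub a k1 * conj (cub a k2) * cub (f ^ 2) k1 *
        conj (cub (f ^ 2) k2) * Tk (M / (N a * N f ^ 2)) k1 k2) * hu
    · rfl
  have R : ∀ f ∈ dv g, ∀ c ∈ dv g, (if f * c = g then Pk M (c * k1) (c * k2) else 0) =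
      if f * c = g then ∑ a ∈ dv g, ∑ b ∈ dv g, (if a * b = c then H a b else 0) else 0 := by
    intro f hf c hc'
    split_ifs with e
    · rw [← ext2 hB hg hc' H, hP M c k1 k2 hM ((mdv hB hg).1 hc').1 h1 h2 (sub f c e)]
    · rfl
  rw [sum_congr rfl fun f hf => (sum_congr rfl (L f hf)).trans (col hB hg f fun a _ => H a f),
    sum_congr rfl fun f hf => (sum_congr rfl (R f hf)).trans (col hB hg f H)]
  rw [sum_comm]
  conv_rhs => rw [sum_comm]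
  refine sum_congr rfl fun a _ => ?_
  rw [sum_comm]
  refine sum_congr rfl fun r _ => sum_congr rfl fun f _ => ?_
  rw [show f * (a * r) = r * (a * f) by ring]

lemma sw5 (S : Finset O) (G : O → O → O → O → O → ℂ) :
    ∑ a ∈ S, ∑ b ∈ S, ∑ c ∈ S, ∑ d ∈ S, ∑ e ∈ S, G a b c d e =
      ∑ c ∈ S, ∑ d ∈ S, ∑ e ∈ S, ∑ a ∈ S, ∑ b ∈ S, G a b c d e := by
  have := sum_comm (s := S ×ˢ S) (t := S ×ˢ S ×ˢ S)
    (f := fun p q => G p.1 p.2 q.1 q.2.1 q.2.2)
  simpa only [sum_product] using this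

lemma swap (X : ℝ) (a : O → ℂ) (F : O → O → O → ℂ) :
    (∑ n1 ∈ SQ X, ∑ n2 ∈ SQ X, a n1 * conj (a n2) * ∑ f ∈ SQ X, ∑ k1 ∈ SQ X, ∑ k2 ∈ SQ X,
      if f * k1 = n1 ∧ f * k2 = n2 then F f k1 k2 else 0) =
    ∑ f ∈ SQ X, ∑ k1 ∈ SQ X, ∑ k2 ∈ SQ X, sh X a f k1 * conj (sh X a f k2) * F f k1 k2 := by
  simp_rw [mul_sum]
  have : ∀ f k1 k2, (∑ n1 ∈ SQ X, ∑ n2 ∈ SQ X, a n1 * conj (a n2) *
      if f * k1 = n1 ∧ f * k2 = n2 then F f k1 k2 else 0) =
      sh X a f k1 * conj (sh X a f k2) * F f k1 k2 := by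
    intro f k1 k2
    simp only [ite_and, mul_ite, mul_zero, sh]
    rw [sum_comm]
    simp only [sum_ite_eq]
    by_cases h1 : f * k1 ∈ SQ X <;> by_cases h2 : f * k2 ∈ SQ X <;> simp [h1, h2]
  simp_rw [← this]
  exact sw5 (SQ X) fun n1 n2 f k1 k2 => a n1 * conj (a n2) *
    if f * k1 = n1 ∧ f * k2 = n2 then F f k1 k2 else 0

lemma hasSum_fm (hB : Bas) {M : ℝ} (hM : 0 < M) (X : ℝ) (a : O → ℂ) :
    HasSum (fun m : O => ((‖∑ n ∈ SQ X, a n * cub m n‖ ^ 2 * Real.exp (-(N m / M)) : ℝ) : ℂ))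
      (Fm (Tk M) X a) := by
  have h : ∀ n1 n2, HasSum (fun m : O => a n1 * conj (a n2) *
      (cub m n1 * conj (cub m n2) * cexp (-(N m / M : ℝ)))) (a n1 * conj (a n2) * Tk M n1 n2) := by
    intro n1 n2
    refine (Summable.hasSum ?_).mul_left _
    refine Summable.of_norm_bounded (GPOM.gsum hB hM) fun m => ?_
    rw [norm_mul, norm_mul, RCLike.norm_conj]
    have := hB.b6.norm_le m n1
    have := hB.b6.norm_le m n2
    have h3 : ‖cub m n1‖ * ‖cub m n2‖ ≤ 1 := mul_le_one₀ ‹_› (norm_nonneg _) ‹_›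
    exact mul_le_of_le_one_left (norm_nonneg _) h3
  have h2 := hasSum_sum (s := SQ X) fun n1 _ => hasSum_sum (s := SQ X) fun n2 _ => h n1 n2
  unfold Fm
  convert h2 using 2 with m
  rw [ofReal_mul, ← normSq_eq_norm_sq, ← mul_conj, map_sum, sum_mul_sum, sum_mul, ofReal_exp,
    ofReal_neg]
  refine sum_congr rfl fun n1 _ => ?_
  rw [sum_mul]
  refine sum_congr rfl fun n2 _ => ?_
  rw [map_mul]; ring

lemma hasSum_re (hB : Bas) {M : ℝ} (hM : 0 < M) (X : ℝ) (a : O → ℂ) :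
    HasSum (fun m : O => ‖∑ n ∈ SQ X, a n * cub m n‖ ^ 2 * Real.exp (-(N m / M)))
      (Fm (Tk M) X a).re := by
  simpa only [ofReal_re] using Complex.hasSum_re (hasSum_fm hB hM X a)

lemma fm_nn (hB : Bas) {M : ℝ} (hM : 0 < M) (X : ℝ) (a : O → ℂ) : 0 ≤ (Fm (Tk M) X a).re :=
  (hasSum_re hB hM X a).nonneg fun _ => by positivity

lemma st1 (hB : Bas) (hK : KIStmt) : ST1Stmt := by
  intro M X a hM
  constructor
  · have key : ∑ f ∈ SQ X, (N f : ℂ) * Fm (Tk (M / N f ^ 2)) X (fun k => sh X a f k * cub (f ^ 2) k) =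
        ∑ e ∈ SQ X, Fm (Pk M) X (sh X a e) := by
      have h1 := swap X a (fun f k1 k2 => (N f : ℂ) * (cub (f ^ 2) k1 * conj (cub (f ^ 2) k2)) *
        Tk (M / N f ^ 2) k1 k2)
      have h2 := swap X a (fun _ k1 k2 => Pk M k1 k2)
      rw [sum_congr rfl fun n1 m1 => sum_congr rfl fun n2 m2 => by rw [hK M X n1 n2 hM m1 m2],
        h2] at h1
      unfold Fm
      rw [h1]
      refine sum_congr rfl fun f _ => ?_
      rw [mul_sum]
      refine sum_congr rfl fun k1 _ => ?_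
      rw [mul_sum]
      refine sum_congr rfl fun k2 _ => ?_
      rw [map_mul]; ring
    rw [← re_sum, ← key, re_sum]
    rcases (SQ X).eq_empty_or_nonempty with h | ⟨n, hn⟩
    · simp [Fm, h]
    · have h1 : (1 : O) ∈ SQ X := sq_of hB hn hB.b2.one (one_mul n)
      have hN : N (1 : O) = 1 := by simpa using hB.b1.N_pow 1 0
      refine le_trans (le_of_eq ?_) (single_le_sum (f := fun f => ((N f : ℂ) *
        Fm (Tk (M / N f ^ 2)) X (fun k => sh X a f k * cub (f ^ 2) k)).re) (fun f hf => ?_) h1)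
      · congr 1
        simp only [hN, one_pow, div_one, ofReal_one, one_mul, hB.b6.one_l, mul_one, Fm]
        refine sum_congr rfl fun n1 m1 => sum_congr rfl fun n2 m2 => ?_
        simp [sh, m1, m2]
      · have hf' : 0 < N f := lt_of_lt_of_le one_pos
          (hB.b1.N_one_le f (hB.b2.ne _ ((msq hB).1 hf).1.1))
        rw [re_ofReal_mul]
        exact mul_nonneg hf'.le (fm_nn hB (by positivity) X _)
  · intro S hS
    have h := (hasSum_re hB hM X a).mul_left 3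
    refine le_trans (sum_le_sum fun m hm => ?_) (sum_le_hasSum S (fun _ _ => by positivity) h)
    have h1 : N m / M ≤ 1 := (div_le_one hM).2 (hS m hm)
    have h2 : Real.exp (-1) ≤ Real.exp (-(N m / M)) := Real.exp_le_exp.2 (by linarith)
    have h3 : 1 / 3 ≤ Real.exp (-1) := by
      have := Real.exp_neg_one_gt_d9; linarith
    nlinarith [sq_nonneg ‖∑ n ∈ SQ X, a n * cub m n‖]

end L2M

theorem kiS (hT : KTStmt) (hP : KPStmt) : KIStmt := L2M.ki W1.bas hT hP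

theorem st1S (hK : KIStmt) : ST1Stmt := L2M.st1 W1.bas hK

end Vale.Agent.P006
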