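import Vale.Agent.P006.L.L4a

noncomputable section
open Complex
open scoped Classical ComplexConjugate

namespace Vale.Agent.P006
open Vale.Agent.P026

namespace L4M

/-- body of the classical large sieve -/
def CLb (C : ℝ) : Prop := ∀ (Q X : ℝ) (S : Finset (O × O)) (T : Finset O) (a : O → ℂ), 1 ≤ Q → 1 ≤ X →
  (∀ h ∈ S, Prim h.1 ∧ Prim h.2 ∧ Squarefree (h.1 * h.2) ∧ N (h.1 * h.2) ≤ Q) →
  (∀ n ∈ T, Prim n ∧ N n ≤ X) →
  ∑ h ∈ S, ‖∑ n ∈ T, a n * cub (h.1 * h.2 ^ 2) n‖ ^ 2 ≤ C * (X + Q ^ 2) * ∑ n ∈ T, ‖a n‖ ^ 2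

/-- all pairs -/
theorem pairs (hB : Bas) {C l c t s : ℝ} (hC0 : 0 ≤ C) (hC : CLb C) (hl : 1 ≤ l) (hc : 1 ≤ c)
    (ht : 1 ≤ t) (hs : 1 ≤ s)
    (hL : ∀ M : ℝ, 0 < M → LB M (s ^ 3) (c * Ps l M (s ^ 3))) (S : Finset (O × O)) (T : Finset O)
    (a : O → ℂ) (hS : ∀ x ∈ S, Prim x.1 ∧ Prim x.2 ∧ Squarefree (x.1 * x.2) ∧
      N x.1 * N x.2 ^ 2 ≤ t ^ 3) (hT : ∀ n ∈ T, SP n ∧ N n ≤ s ^ 3) :
    ∑ x ∈ S, ‖∑ n ∈ T, a n * cub (x.1 * x.2 ^ 2) n‖ ^ 2 ≤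
      (2 * C * s ^ 3 + c * ((16 + Zt + C) * (t ^ 2 * s ^ 2) +
        2 * Zt * (l ^ (2 / 3 : ℝ) * t ^ 4))) * ∑ n ∈ T, ‖a n‖ ^ 2 := by
  have q0 : 0 ≤ ∑ n ∈ T, ‖a n‖ ^ 2 := by positivity
  have t0 : 0 < t := by linarith
  have s0 : 0 < s := by linarith
  have s3 : 1 ≤ s ^ 3 := one_le_pow₀ hs
  rw [← Finset.sum_filter_add_sum_filter_not S fun x => N x.2 ≤ t ^ 2 / s]
  have h1 := small hB hl hc ht hs hL (S.filter fun x => N x.2 ≤ t ^ 2 / s) T a (fun x hx => by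
    obtain ⟨h1, h2⟩ := Finset.mem_filter.1 hx
    obtain ⟨a1, a2, a3, a4⟩ := hS x h1
    exact ⟨a1, a2, a3, a4, h2⟩) hT
  have h2 := hC (max 1 (t * s)) (s ^ 3) (S.filter fun x => ¬ N x.2 ≤ t ^ 2 / s) T a (le_max_left _ _) s3
    (fun x hx => ?_) fun n hn => ⟨(hT n hn).1.1, (hT n hn).2⟩
  · have h3 : max 1 (t * s) ^ 2 ≤ s ^ 3 + c * (t ^ 2 * s ^ 2) := by
      have : 0 ≤ t ^ 2 * s ^ 2 := by positivity
      rcases max_cases 1 (t * s) with h | h <;> rw [h.1] <;> nlinarith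
    have h4 : C * (s ^ 3 + max 1 (t * s) ^ 2) ≤ C * (s ^ 3 + (s ^ 3 + c * (t ^ 2 * s ^ 2))) :=
      mul_le_mul_of_nonneg_left (by linarith) hC0
    refine (add_le_add h1 (h2.trans (mul_le_mul_of_nonneg_right h4 q0))).trans (le_of_eq ?_)
    ring
  · obtain ⟨h1, h2⟩ := Finset.mem_filter.1 hx
    obtain ⟨a1, a2, a3, a4⟩ := hS x h1
    refine ⟨a1, a2, a3, le_max_of_le_right ?_⟩
    rw [not_le, div_lt_iff₀ s0] at h2
    rw [hB.b1.N_mul]
    have n1 := hB.b1.N_one_le _ (hB.b2.ne _ a1)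
    have n2 := hB.b1.N_one_le _ (hB.b2.ne _ a2)
    have h5 : N x.1 * N x.2 * t ^ 2 ≤ t * s * t ^ 2 := by
      have := mul_le_mul_of_nonneg_left h2.le (by positivity : 0 ≤ N x.1 * N x.2)
      nlinarith
    exact le_of_mul_le_mul_right h5 (by positivity)

theorem wt {ν : ℝ} (hν : 1 ≤ ν) (k : ℕ) (hk : 2 ≤ k) : (ν ^ k)⁻¹ ≤ ν ^ (-(4 / 3) : ℝ) := by
  rw [← Real.rpow_natCast, ← Real.rpow_neg (by linarith)]
  refine Real.rpow_le_rpow_of_exponent_le hν ?_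
  have : (2 : ℝ) ≤ k := by exact_mod_cast hk
  linarith

theorem main (hB : Bas) {C l c t s : ℝ} (hC0 : 0 ≤ C) (hC : CLb C) (hl : 1 ≤ l) (hc : 1 ≤ c)
    (ht : 1 ≤ t) (hs : 1 ≤ s)
    (hL : ∀ M : ℝ, 0 < M → LB M (s ^ 3) (c * Ps l M (s ^ 3))) :
    LA (t ^ 3) (s ^ 3) (18 * (16 * t * (2 * C * s ^ 3) + c * ((16 + Zt + C) * (t ^ 2 * s ^ 2) +
        2 * Zt * (l ^ (2 / 3 : ℝ) * t ^ 4)) * Zt)) := by
  intro S T a hS hT
  have q0 : 0 ≤ ∑ n ∈ T, ‖a n‖ ^ 2 := by positivity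
  have t0 : 0 < t := by linarith
  have s0 : 0 < s := by linarith
  have c0 : 0 < c := by linarith
  have l0 : 0 < l := by linarith
  have z0 := zt0
  choose! y hy using dec hB
  have key : ∀ k ∈ S, N (y k).2.1 * N (y k).2.2 ^ 2 * N (y k).1.2 ^ 3 ≤ t ^ 3 := by
    intro k hk
    obtain ⟨-, a2, -, -, -, -, a7⟩ := hy k (hS k hk).1
    have h1 := (hS k hk).2
    rw [a7, hB.b1.N_mul, hB.b1.N_mul, hB.b1.N_mul, hB.b1.N_pow, hB.b1.N_pow] at h1
    have n1 := hB.b1.N_one_le _ a2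
    have p : 0 ≤ N (y k).2.1 * N (y k).2.2 ^ 2 * N (y k).1.2 ^ 3 := by unfold N; positivity
    nlinarith
  have hH : ∀ h ∈ S.image fun k => (y k).1.2, h ≠ 0 ∧ N h ≤ t := by
    intro h hh
    obtain ⟨k, hk, rfl⟩ := Finset.mem_image.1 hh
    obtain ⟨-, -, a3, a4, a5, -, -⟩ := hy k (hS k hk).1
    refine ⟨a3, le_of_pow_le_pow_left₀ (by norm_num : 3 ≠ 0) t0.le (le_trans ?_ (key k hk))⟩
    have n1 := hB.b1.N_one_le _ (hB.b2.ne _ a4)
    have n2 := one_le_pow₀ (n := 2) (hB.b1.N_one_le _ (hB.b2.ne _ a5))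
    exact le_mul_of_one_le_left (by unfold N; positivity) (by nlinarith)
  rw [← Finset.sum_fiberwise_of_maps_to (g := fun k => (y k).1)
    (t := U18 ×ˢ S.image fun k => (y k).1.2)
    fun k hk => Finset.mem_product.2 ⟨(hy k (hS k hk).1).1,
      Finset.mem_image_of_mem (fun k => (y k).1.2) hk⟩, Finset.sum_product]
  have h2 : ∀ x ∈ U18, ∀ h ∈ S.image fun k => (y k).1.2,
      ∑ k ∈ S with (y k).1 = (x, h), ‖∑ n ∈ T, a n * cub k n‖ ^ 2 ≤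
      2 * C * s ^ 3 * (∑ n ∈ T, ‖a n‖ ^ 2) + c * ((16 + Zt + C) * (t ^ 2 * s ^ 2) +
        2 * Zt * (l ^ (2 / 3 : ℝ) * t ^ 4)) * (∑ n ∈ T, ‖a n‖ ^ 2) * N h ^ (-(4 / 3) : ℝ) := by
    intro x _ h hh
    have n1 := hB.b1.N_one_le _ (hH h hh).1
    have n0 : 0 < N h := by linarith
    have h3 := pairs hB hC0 hC hl hc (t := t / N h) ((one_le_div n0).2 (hH h hh).2) hs hL
      ((S.filter fun k => (y k).1 = (x, h)).image fun k => (y k).2) T
      (fun n => a n * cub (x * h ^ 3) n) (fun p hp => ?_) hT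
    · rw [Finset.sum_image fun k hk k' hk' e => ?_] at h3
      · have w2 := wt n1 2 le_rfl
        have w4 := wt n1 4 (by norm_num)
        have h4 : (16 + Zt + C) * ((t / N h) ^ 2 * s ^ 2) + 2 * Zt * (l ^ (2 / 3 : ℝ) * (t / N h) ^ 4) ≤
            ((16 + Zt + C) * (t ^ 2 * s ^ 2) + 2 * Zt * (l ^ (2 / 3 : ℝ) * t ^ 4)) *
              N h ^ (-(4 / 3) : ℝ) := by
          have b1 := mul_le_mul_of_nonneg_left w2 (by positivity : 0 ≤ (16 + Zt + C) * (t ^ 2 * s ^ 2))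
          have b2 := mul_le_mul_of_nonneg_left w4
            (by positivity : 0 ≤ 2 * Zt * (l ^ (2 / 3 : ℝ) * t ^ 4))
          rw [div_pow, div_pow, div_eq_mul_inv (t ^ 2), div_eq_mul_inv (t ^ 4)]
          linarith
        refine (le_of_eq (Finset.sum_congr rfl fun k hk => ?_)).trans (h3.trans ?_)
        · obtain ⟨hk1, hk2⟩ := Finset.mem_filter.1 hk
          have e := (hy k (hS k hk1).1).2.2.2.2.2.2
          rw [hk2] at e
          rw [← tw hB hT, ← e]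
        · refine (mul_le_mul (add_le_add le_rfl (mul_le_mul_of_nonneg_left h4 c0.le)) (tw_le hB T a _)
            (by positivity) (by positivity)).trans (le_of_eq ?_)
          ring
      · obtain ⟨hk1, hk2⟩ := Finset.mem_filter.1 hk
        obtain ⟨hk1', hk2'⟩ := Finset.mem_filter.1 hk'
        have e1 := (hy k (hS k hk1).1).2.2.2.2.2.2
        have e2 := (hy k' (hS k' hk1').1).2.2.2.2.2.2
        rw [hk2, show (y k).2 = (y k').2 from e] at e1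
        rw [hk2'] at e2
        exact e1.trans e2.symm
    · obtain ⟨k, hk, rfl⟩ := Finset.mem_image.1 hp
      obtain ⟨hk1, hk2⟩ := Finset.mem_filter.1 hk
      obtain ⟨-, -, -, a4, a5, a6, -⟩ := hy k (hS k hk1).1
      refine ⟨a4, a5, a6, ?_⟩
      have h5 := key k hk1
      rw [hk2] at h5
      rw [div_pow, le_div_iff₀ (by positivity)]
      exact h5
  refine (Finset.sum_le_card_nsmul _ _ _ fun x hx => (Finset.sum_le_sum (h2 x hx)).trans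
    (aff hB _ t0.le (by positivity) (by positivity) hH)).trans ?_
  rw [nsmul_eq_mul]
  refine (mul_le_mul_of_nonneg_right card18 (by positivity)).trans (le_of_eq ?_)
  ring

theorem baS (hB : Bas) (hC : CLStmt) : BAStmt := by
  obtain ⟨C, hC0, hC⟩ := hC
  have z0 := zt0
  refine ⟨576 * C + 18 * (16 + Zt + C) * Zt + 36 * Zt ^ 2, by positivity, ?_⟩
  intro l c K X hl hc hK hX hL
  obtain ⟨t, ht, rfl⟩ := cube hK
  obtain ⟨s, hs, rfl⟩ := cube hX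
  have t0 : 0 < t := by linarith
  have s0 : 0 < s := by linarith
  have c0 : 0 < c := by linarith
  have l0 : 0 < l := by linarith
  intro S T a hS hT
  refine (main hB hC0 hC hl hc ht hs hL S T a hS hT).trans
    (mul_le_mul_of_nonneg_right ?_ (by positivity))
  rw [c13 t0.le, c23 t0.le, c23 s0.le, c43 t0.le]
  have p1 : 0 ≤ (18 * (16 + Zt + C) * Zt + 36 * Zt ^ 2) * s ^ 3 * t := by positivity
  have p2 : 0 ≤ (576 * C + 36 * Zt ^ 2) * c * s ^ 2 * t ^ 2 := by positivity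
  have p3 : 0 ≤ (576 * C + 18 * (16 + Zt + C) * Zt) * c * l ^ (2 / 3 : ℝ) * t ^ 4 := by positivity
  linarith

end L4M

end Vale.Agent.P006
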