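import Vale.Agent.P006.SL
import Vale.Agent.P006.Poi3
import Vale.Agent.P026.M.SS0
import Vale.Agent.P026.M.W1
import Vale.Agent.P026.M.GAM

/-! P006 row L3: bound for the dual form. -/

noncomputable section
open Complex MeasureTheory Filter Topology
open scoped Classical ComplexConjugate

namespace Vale.Agent.P006
open Vale.Agent.P026

namespace L3M
open SS0M

/-- potential -/
def Hp (K : ℝ) (j : ℕ) : ℝ := (2 ^ j / K) ^ (1 / 12 : ℝ) / (1 + (2 ^ j / K) ^ (1 / 12 : ℝ))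
/-- abscissa -/
def sig (K : ℝ) (j : ℕ) : ℝ := if 2 ^ j ≤ K then 1 / 4 else 2
/-- ratio -/
def rr : ℝ := 2 ^ (1 / 12 : ℝ)

theorem rr1 : 1 < rr := Real.one_lt_rpow one_lt_two (by norm_num)
theorem rr2 : rr ≤ 2 := by
  simpa [rr] using Real.rpow_le_rpow_of_exponent_le (x := 2) one_le_two (show (1 / 12 : ℝ) ≤ 1 by norm_num)

theorem sig0 (K j) : 0 < sig K j := by
  unfold sig
  split_ifs <;> norm_num

theorem blk {K θ : ℝ} (hK : 0 < K) (h1 : 1 / 3 ≤ θ) (h2 : θ ≤ 4 / 3) (j : ℕ) :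
    (2 ^ j / K) ^ (-sig K j) * (2 ^ (j + 1)) ^ θ ≤
      24 / (rr - 1) * min 1 (Real.sqrt K) * (Hp K (j + 1) - Hp K j) * K ^ θ := by
  have a1 := rr1
  have a2 := rr2
  have j1 : (1 : ℝ) ≤ 2 ^ j := one_le_pow₀ one_le_two
  have e : Hp K (j + 1) = rr * (2 ^ j / K) ^ (1 / 12 : ℝ) / (1 + rr * (2 ^ j / K) ^ (1 / 12 : ℝ)) := by
    rw [Hp, rr, ← Real.mul_rpow (by norm_num) (by positivity), pow_succ', mul_div_assoc]
  have e2 : ((2 : ℝ) ^ (j + 1)) ^ θ = 2 ^ θ * (2 ^ j / K) ^ θ * K ^ θ := by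
    rw [← Real.mul_rpow (by norm_num) (by positivity), ← Real.mul_rpow (by positivity) hK.le]
    congr 1
    field_simp
    ring
  have e3 : (2 : ℝ) ^ θ ≤ 4 := by
    simpa using (Real.rpow_le_rpow_of_exponent_le (x := 2) one_le_two (show θ ≤ 2 by linarith)).trans_eq
      (by norm_num : (2 : ℝ) ^ (2 : ℝ) = 4)
  have t0 : 0 < (2 : ℝ) ^ j / K := by positivity
  have key : (2 ^ j / K) ^ (-sig K j + θ) ≤ min 1 (Real.sqrt K) *
      (6 * (2 ^ j / K) ^ (1 / 12 : ℝ) / ((1 + (2 ^ j / K) ^ (1 / 12 : ℝ)) *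
        (1 + rr * (2 ^ j / K) ^ (1 / 12 : ℝ)))) := by
    have u0 : 0 < (2 ^ j / K) ^ (1 / 12 : ℝ) := by positivity
    unfold sig
    split_ifs with c
    · have t1 : (2 : ℝ) ^ j / K ≤ 1 := (div_le_one hK).2 c
      have u1 := Real.rpow_le_one t0.le t1 (show (0 : ℝ) ≤ 1 / 12 by norm_num)
      rw [min_eq_left (Real.one_le_sqrt.2 (j1.trans c)), one_mul]
      refine (Real.rpow_le_rpow_of_exponent_ge t0 t1 (show 1 / 12 ≤ _ by linarith)).trans ?_
      generalize (2 ^ j / K) ^ (1 / 12 : ℝ) = u at u0 u1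
      rw [le_div_iff₀ (by positivity), mul_comm 6]
      have : rr * u ≤ 2 := by nlinarith
      gcongr
      nlinarith
    · have t1 : 1 ≤ (2 : ℝ) ^ j / K := (one_le_div hK).2 (not_le.1 c).le
      have u1 := Real.one_le_rpow t1 (show (0 : ℝ) ≤ 1 / 12 by norm_num)
      refine (Real.rpow_le_rpow_of_exponent_le t1 (show _ ≤ -(1 / 2) + -(1 / 12) by linarith)).trans ?_
      rw [Real.rpow_add t0, Real.rpow_neg t0.le (1 / 12)]
      gcongr
      · refine le_min (Real.rpow_le_one_of_one_le_of_nonpos t1 (by norm_num)) ?_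
        rw [Real.rpow_neg t0.le, ← Real.sqrt_eq_rpow, ← Real.sqrt_inv, inv_div]
        exact Real.sqrt_le_sqrt (div_le_self hK.le j1)
      · generalize (2 ^ j / K) ^ (1 / 12 : ℝ) = u at u0 u1
        rw [inv_eq_one_div, div_le_div_iff₀ u0 (by positivity)]
        have : rr * u ≤ 2 * u := by nlinarith
        nlinarith
  rw [e2, ← mul_assoc, mul_left_comm, ← Real.rpow_add t0, e, Hp]
  refine mul_le_mul_of_nonneg_right ((mul_le_mul e3 key (by positivity) (by norm_num)).trans_eq ?_)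
    (by positivity)
  have : rr - 1 ≠ 0 := by linarith
  field_simp
  ring

/-- coefficients -/
def zz (b : O → ℂ) (h n : O) : ℂ := b n * conj (cub h n * gs n) / Real.sqrt (N n)
/-- one frequency -/
def Eh (M : ℝ) (T : Finset O) (b : O → ℂ) (h : O) : ℂ := ∑ n1 ∈ T, ∑ n2 ∈ T, zz b h n1 * conj (zz b h n2) *
  (((Real.sqrt (N n1 * N n2) : ℂ))⁻¹ * cexp (-(sg * M * N h / (N n1 * N n2) : ℝ)))
/-- Gamma integral -/
def GG (σ : ℝ) : ℝ := ∫ u : ℝ, ‖Gamma (σ + u * I)‖

theorem GG0 (σ) : 0 ≤ GG σ := integral_nonneg fun _ => norm_nonneg _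

theorem blockE {M Y K B σ L : ℝ} {S T : Finset O} (b : O → ℂ) (hM : 0 < M) (hY : 0 < Y) (hL : 0 < L) (hB : 0 ≤ B)
    (hσ : σ = 1 / 4 ∨ σ = 2) (hT : ∀ n ∈ T, SP n ∧ Y / 2 < N n ∧ N n ≤ Y) (hA : LA K Y B)
    (hS : ∀ h ∈ S, h ≠ 0 ∧ L ≤ N h ∧ N h ≤ K) :
    ∑ h ∈ S, ‖Eh M T b h‖ ≤ GG σ * Y⁻¹ * ((L / (Y ^ 2 / M)) ^ (-σ) * B) * ∑ n ∈ T, ‖b n‖ ^ 2 := by
  have s0 : 0 < σ := by rcases hσ with h | h <;> rw [h] <;> norm_num
  have n0 : ∀ n ∈ T, 0 < N n := fun n hn => by linarith [(hT n hn).2.1]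
  have pi := Real.pi_gt_three
  have a : ∀ u : ℝ, ∑ h ∈ S, ‖Poi3.SP T (zz b h) N σ u‖ ^ 2 ≤
      B * (2 * Y ^ (-1 + 2 * σ) * ∑ n ∈ T, ‖b n‖ ^ 2) := fun u => by
    have := hA S T (fun n => conj (b n * conj (gs n) / Real.sqrt (N n) * (N n : ℂ) ^ (-1 / 2 + σ + u * I)))
      (fun h hh => ⟨(hS h hh).1, (hS h hh).2.2⟩) fun n hn => ⟨(hT n hn).1, (hT n hn).2.2⟩
    refine le_trans (le_of_eq (Finset.sum_congr rfl fun h _ => ?_)) (this.trans ?_)
    · rw [← norm_conj, Poi3.SP, map_sum]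
      congr 2
      refine Finset.sum_congr rfl fun n _ => ?_
      simp only [zz, map_mul, map_div₀, conj_conj]
      ring
    · refine mul_le_mul_of_nonneg_left ?_ hB
      rw [Finset.mul_sum]
      refine Finset.sum_le_sum fun n hn => ?_
      have p := n0 n hn
      rw [norm_conj, norm_mul, norm_div, norm_mul, norm_conj, norm_cpow_eq_rpow_re_of_pos p, norm_real,
        mul_pow, div_pow, mul_pow, W1.hd.n3 n (W1.bas.b2.cop n (hT n hn).1.1) (hT n hn).1.2, Real.norm_eq_abs,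
        sq_abs, Real.sq_sqrt p.le, mul_div_cancel_right₀ _ p.ne', mul_comm, ← Real.rpow_natCast,
        ← Real.rpow_mul p.le]
      gcongr
      rcases hσ with rfl | rfl
      · refine le_trans (le_of_eq (by congr 1; simp; norm_num)) ((Real.rpow_le_rpow_of_nonpos
          (show 0 < Y / 4 by positivity) (show Y / 4 ≤ N n by linarith [(hT n hn).2.1])
          (show (-1 + 2 * (1 / 4) : ℝ) ≤ 0 by norm_num)).trans_eq ?_)
        rw [Real.div_rpow hY.le (by norm_num), show (4 : ℝ) = 2 ^ (2 : ℝ) by norm_num,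
          ← Real.rpow_mul (by norm_num)]
        norm_num
        ring
      · refine le_trans (le_of_eq (by congr 1; simp; norm_num)) ((Real.rpow_le_rpow p.le (hT n hn).2.2
          (show (0 : ℝ) ≤ -1 + 2 * 2 by norm_num)).trans ?_)
        linarith [Real.rpow_pos_of_pos hY (-1 + 2 * 2)]
  have i := fun h => Poi3.SP_int gamS T (zz b h) N n0 s0
  calc _ ≤ ∑ h ∈ S, 1 / 2 * (M * L) ^ (-σ) *
        ∫ u : ℝ, ‖Gamma (σ + u * I)‖ * ‖Poi3.SP T (zz b h) N σ u‖ ^ 2 := by
        refine Finset.sum_le_sum fun h hh => ?_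
        have q : M * L ≤ sg * M * N h := by
          have := mul_le_mul (le_mul_of_one_le_left hM.le sg1) (hS h hh).2.1 hL.le (by nlinarith [sg1])
          exact this
        refine (Poi3.sep gamS T (zz b h) N n0 ((mul_pos hM hL).trans_le q) s0).trans ?_
        have := integral_nonneg (μ := volume)
          (f := fun u : ℝ => ‖Gamma (σ + u * I)‖ * ‖Poi3.SP T (zz b h) N σ u‖ ^ 2) fun u => by positivity
        refine mul_le_mul_of_nonneg_right (mul_le_mul ?_ (Real.rpow_le_rpow_of_nonpos (mul_pos hM hL) q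
          (by linarith)) (Real.rpow_nonneg ((mul_pos hM hL).le.trans q) _) (by norm_num)) this
        exact one_div_le_one_div_of_le (by norm_num) (by linarith)
    _ ≤ 1 / 2 * (M * L) ^ (-σ) * ∫ u : ℝ, ‖Gamma (σ + u * I)‖ *
        (B * (2 * Y ^ (-1 + 2 * σ) * ∑ n ∈ T, ‖b n‖ ^ 2)) := by
        rw [← Finset.mul_sum, ← integral_finsetSum _ fun h _ => i h]
        gcongr
        · exact integrable_finsetSum _ fun h _ => i h
        · exact (PS1M.gam_int gamS s0).norm.mul_const _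
        · intro u
          simp only [← Finset.mul_sum]
          exact mul_le_mul_of_nonneg_left (a u) (norm_nonneg _)
    _ = _ := by
        rw [integral_mul_const, ← GG, div_div_eq_mul_div, Real.div_rpow (by positivity) (by positivity),
          ← Real.rpow_natCast Y 2, ← Real.rpow_mul hY.le, Real.rpow_add hY, Real.rpow_neg_one, mul_comm L,
          show ((2 : ℕ) : ℝ) * -σ = -(2 * σ) by push_cast; ring, Real.rpow_neg hY.le]
        field_simp

theorem zero (M : ℝ) {T : Finset O} (b : O → ℂ) (hT : ∀ n ∈ T, SP n) : ‖Eh M T b 0‖ ≤ ‖b 1‖ ^ 2 := by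
  have hB := W1.bas
  have z : ∀ n ∈ T, n ≠ 1 → zz b 0 n = 0 := fun n hn h => by
    rw [zz, hB.b6.zero 0 n (hB.b2.ne n (hT n hn).1) fun c => h (Poi3.eq_one_of_dvd hB (hT n hn).1
      (isUnit_iff_dvd_one.1 (isCoprime_zero_left.1 c)))]
    simp
  have n1 : N 1 = 1 := by simp [N, (hB.b1.unit_iff 1).1 isUnit_one]
  have g : ‖gs 1‖ = 1 := by
    have := W1.hd.n3 1 isCoprime_one_left squarefree_one
    rwa [n1, pow_eq_one_iff_of_nonneg (norm_nonneg _) two_ne_zero] at this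
  by_cases c : (1 : O) ∈ T
  · rw [Eh, Finset.sum_eq_single_of_mem 1 c fun n hn h => by simp [z n hn h],
      Finset.sum_eq_single_of_mem 1 c fun n hn h => by simp [z n hn h]]
    simp [zz, n1, hB.b1.N_zero, hB.b6.unit_r 0 1 isUnit_one, g, sq]
  · rw [Eh, Finset.sum_eq_zero fun n hn => by simp [z n hn fun e => c (e ▸ hn)]]
    simp

end L3M

open L3M SS0M

theorem st2S : ST2Stmt := by
  have hB := W1.bas
  have a1 := rr1
  have c0 : 0 ≤ (GG (1 / 4) + GG 2) * (24 / (rr - 1)) :=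
    mul_nonneg (add_nonneg (GG0 _) (GG0 _)) (div_nonneg (by norm_num) (by linarith))
  refine ⟨4 * ((GG (1 / 4) + GG 2) * (24 / (rr - 1))), by positivity,
    fun M X Y α β γ b hM hY hα hβ hγ hb hA => ?_⟩
  have hK : 0 < Y ^ 2 / M := by positivity
  have sK : Real.sqrt (Y ^ 2 / M) = Y / Real.sqrt M := by
    rw [Real.sqrt_div (by positivity), Real.sqrt_sq hY.le]
  obtain ⟨T, hTd⟩ : ∃ T, T = (SQ X).filter fun n => b n ≠ 0 := ⟨_, rfl⟩
  have hT : ∀ n ∈ T, SP n ∧ Y / 2 < N n ∧ N n ≤ Y := fun n hn => by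
    rw [hTd, Finset.mem_filter] at hn
    exact ⟨(((memS hB).1 X n).1 hn.1).1, hb n hn.2⟩
  have n0 : ∀ n ∈ T, 0 < N n := fun n hn => by linarith [(hT n hn).2.1]
  have eb : ∑ n ∈ SQ X, ‖b n‖ ^ 2 = ∑ n ∈ T, ‖b n‖ ^ 2 := by
    rw [hTd]
    refine (Finset.sum_filter_of_ne (p := fun n => b n ≠ 0) ?_).symm
    exact fun n _ h (e : b n = 0) => h (by simp [e])
  have eF : Fm (Pk M) X b = (Real.pi * M : ℝ) / kap * ∑' h, Eh M T b h := by
    have sm : ∀ h : O, ∀ n1 ∈ T, ∀ n2 ∈ T, Summable fun h => zz b h n1 * conj (zz b h n2) *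
        (((Real.sqrt (N n1 * N n2) : ℂ))⁻¹ * cexp (-(sg * M * N h / (N n1 * N n2) : ℝ))) := by
      intro _ n1 h1 n2 h2
      have p1 := n0 n1 h1
      have p2 := n0 n2 h2
      have q : ∀ h n, ‖zz b h n‖ ≤ ‖b n‖ * ‖gs n‖ / Real.sqrt (N n) := fun h n => by
        rw [zz, norm_div, norm_mul, norm_conj, norm_mul, norm_real, Real.norm_of_nonneg (Real.sqrt_nonneg _)]
        gcongr
        exact mul_le_of_le_one_left (norm_nonneg _) (hB.b6.norm_le _ _)
      refine Summable.of_norm_bounded ((summ_exp hB (c := sg * M / (N n1 * N n2))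
        (by have := sg1; positivity)).mul_left (‖b n1‖ * ‖gs n1‖ / Real.sqrt (N n1) *
        (‖b n2‖ * ‖gs n2‖ / Real.sqrt (N n2)) * ‖((Real.sqrt (N n1 * N n2) : ℂ))⁻¹‖)) fun h => ?_
      rw [norm_mul, norm_mul, norm_mul, norm_conj, cexp_norm, ← mul_assoc, div_mul_eq_mul_div (sg * M)]
      gcongr <;> apply q
    unfold Eh
    rw [Summable.tsum_finsetSum fun n1 h1 => summable_sum fun n2 h2 => sm 0 n1 h1 n2 h2, Finset.mul_sum, Fm,
      ← Finset.sum_filter_of_ne (p := fun n => b n ≠ 0) fun n _ h (e : b n = 0) => h (by simp [e]), ← hTd]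
    refine Finset.sum_congr rfl fun n1 h1 => ?_
    rw [Summable.tsum_finsetSum fun n2 h2 => sm 0 n1 h1 n2 h2, Finset.mul_sum,
      ← Finset.sum_filter_of_ne (p := fun n => b n ≠ 0) fun n _ h (e : b n = 0) => h (by simp [e]), ← hTd]
    refine Finset.sum_congr rfl fun n2 h2 => ?_
    rw [Pk, ← tsum_mul_left, ← tsum_mul_left, ← tsum_mul_left]
    refine tsum_congr fun h => ?_
    have p1 := n0 n1 h1
    have p2 := n0 n2 h2
    have r1 : (Real.sqrt (N n1) : ℂ) ≠ 0 := ofReal_ne_zero.2 (Real.sqrt_pos.2 p1).ne'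
    have r2 : (Real.sqrt (N n2) : ℂ) ≠ 0 := ofReal_ne_zero.2 (Real.sqrt_pos.2 p2).ne'
    have e : ((N n1 * N n2 : ℝ) : ℂ) = (Real.sqrt (N n1) : ℂ) ^ 2 * (Real.sqrt (N n2) : ℂ) ^ 2 := by
      rw [← ofReal_pow, ← ofReal_pow, Real.sq_sqrt p1.le, Real.sq_sqrt p2.le, ofReal_mul]
    have k := Poi3.kap_ne
    simp only [zz, map_mul, map_div₀, conj_conj, conj_ofReal, Real.sqrt_mul p1.le, e]
    rw [ofReal_mul (Real.sqrt _)]
    field_simp
  obtain ⟨Φ, hΦ⟩ : ∃ Φ : ℝ → ℝ, Φ = fun K => α * K ^ (1 / 3 : ℝ) + β * K ^ (2 / 3 : ℝ) + γ * K ^ (4 / 3 : ℝ) :=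
    ⟨_, rfl⟩
  have Φ0 : ∀ K, 0 < K → 0 ≤ Φ K := fun K hK => by
    rw [hΦ]
    positivity
  obtain ⟨D, hD⟩ : ∃ D, D = (GG (1 / 4) + GG 2) * (24 / (rr - 1)) * Y⁻¹ * min 1 (Y / Real.sqrt M) *
    Φ (Y ^ 2 / M) * ∑ n ∈ T, ‖b n‖ ^ 2 := ⟨_, rfl⟩
  have D0 : 0 ≤ D := by
    have := Φ0 _ hK
    rw [hD]
    positivity
  have main : ∀ S : Finset O, ∑ h ∈ S, ‖Eh M T b h‖ ≤ ‖b 1‖ ^ 2 + D := fun S => by
    have f : ∀ h ∈ S.erase 0, Nat.log 2 (Nn h) ∈ Finset.range (S.sup (fun h => Nat.log 2 (Nn h)) + 1) :=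
      fun h hh => Finset.mem_range_succ_iff.2
        (Finset.le_sup (f := fun h => Nat.log 2 (Nn h)) (Finset.mem_of_mem_erase hh))
    have r : ∑ h ∈ S.erase 0, ‖Eh M T b h‖ ≤ D := by
      rw [← Finset.sum_fiberwise_of_maps_to f]
      generalize S.sup (fun h => Nat.log 2 (Nn h)) + 1 = J
      calc _ ≤ ∑ j ∈ Finset.range J, D * (Hp (Y ^ 2 / M) (j + 1) - Hp (Y ^ 2 / M) j) := by
            refine Finset.sum_le_sum fun j _ => ?_
            have j1 : (1 : ℝ) ≤ 2 ^ (j + 1) := one_le_pow₀ one_le_two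
            refine (blockE (σ := sig (Y ^ 2 / M) j) (L := 2 ^ j) b hM hY (by positivity) (by positivity)
              (by unfold sig; split_ifs <;> simp) hT (hA _ j1) fun h hh => ?_).trans ?_
            · obtain ⟨h1, rfl⟩ := Finset.mem_filter.1 hh
              have h0 := (Finset.mem_erase.1 h1).1
              have h2 : Nn h ≠ 0 := fun e => by
                have := hB.b1.N_one_le h h0
                rw [N, e] at this
                norm_num at this
              refine ⟨h0, ?_, ?_⟩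
              · unfold N
                exact_mod_cast Nat.pow_log_le_self 2 h2
              · unfold N
                exact_mod_cast (Nat.lt_pow_succ_log_self one_lt_two _).le
            · have b1 := mul_le_mul_of_nonneg_left (blk hK le_rfl (by norm_num) j) hα
              have b2 := mul_le_mul_of_nonneg_left (blk (θ := 2 / 3) hK (by norm_num) (by norm_num) j) hβ
              have b3 := mul_le_mul_of_nonneg_left (blk hK (by norm_num) le_rfl j) hγ
              have g : GG (sig (Y ^ 2 / M) j) ≤ GG (1 / 4) + GG 2 := by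
                unfold sig
                split_ifs <;> linarith [GG0 (1 / 4), GG0 2]
              have g0 := GG0 (sig (Y ^ 2 / M) j)
              have g1 := g0.trans g
              calc _ ≤ (GG (1 / 4) + GG 2) * Y⁻¹ * (24 / (rr - 1) * min 1 (Real.sqrt (Y ^ 2 / M)) *
                    (Hp (Y ^ 2 / M) (j + 1) - Hp (Y ^ 2 / M) j) * Φ (Y ^ 2 / M)) * ∑ n ∈ T, ‖b n‖ ^ 2 := by
                    refine mul_le_mul_of_nonneg_right (mul_le_mul (by gcongr) ?_ (by positivity)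
                      (by positivity)) (by positivity)
                    rw [hΦ]
                    linarith
                _ = _ := by
                    rw [hD, sK]
                    ring
        _ ≤ D := by
            rw [← Finset.mul_sum, Finset.sum_range_sub]
            refine mul_le_of_le_one_right D0 ?_
            have u : ∀ j, 0 ≤ Hp (Y ^ 2 / M) j ∧ Hp (Y ^ 2 / M) j ≤ 1 := fun j =>
              ⟨by unfold Hp; positivity, (div_le_one (by positivity)).2 (by linarith)⟩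
            linarith [(u J).2, (u 0).1]
    have z := zero M b fun n hn => (hT n hn).1
    by_cases c : (0 : O) ∈ S
    · rw [← Finset.add_sum_erase _ _ c]
      linarith
    · rw [Finset.erase_eq_of_notMem c] at r
      linarith [sq_nonneg ‖b 1‖]
  have sE := summable_of_sum_le (fun h => norm_nonneg (Eh M T b h)) main
  have k : ‖((Real.pi * M : ℝ) : ℂ) / kap‖ ≤ 4 * M := by
    have s3 : 8 / 5 ≤ Real.sqrt 3 := Real.le_sqrt_of_sq_le (by norm_num)
    rw [norm_div, norm_real, kap, norm_div, norm_real, Real.norm_of_nonneg (by positivity),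
      Real.norm_of_nonneg (by positivity), Complex.norm_two, div_le_iff₀ (by positivity)]
    nlinarith [Real.pi_lt_d2]
  refine (re_le_norm _).trans ?_
  rw [eF, norm_mul, eb]
  refine (mul_le_mul k ((norm_tsum_le_tsum_norm sE).trans (sE.tsum_le_of_sum_le main)) (norm_nonneg _)
    (by positivity)).trans_eq ?_
  rw [hD, hΦ]
  ring

end Vale.Agent.P006
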