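import Vale.Agent.P006.L.L4b
import Vale.Agent.P026.M.W1

namespace Vale.Agent.P006
open Vale.Agent.P026

theorem baS (hC : CLStmt) : BAStmt := L4M.baS W1.bas hC

end Vale.Agent.P006
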