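import Vale.Agent.P006.L.H16

/-! The weighted bound on one shell. -/

noncomputable section
open Complex
open scoped Classical ComplexConjugate

namespace Vale.Agent.P006
open Vale.Agent.P026 W1 H16

namespace L5M

theorem alg {C c l M y : ℝ} (hC : 0 ≤ C) (hc : 1 ≤ c) (hl : 1 ≤ l) (hM : 0 < M) (hy : 0 < y)
    (h : l * y ≤ M) :
    (M / y) * (C * y * (y ^ 2 / M) ^ (1 / 3 : ℝ) + C * c * y ^ (2 / 3 : ℝ) * (y ^ 2 / M) ^ (2 / 3 : ℝ) +
      C * c * l ^ (2 / 3 : ℝ) * (y ^ 2 / M) ^ (4 / 3 : ℝ)) ≤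
      2 * C * (1 + c * l ^ (-1 / 3 : ℝ)) * (M * y) ^ (2 / 3 : ℝ) := by
  obtain ⟨m, hm, rfl⟩ := cube hM
  obtain ⟨t, ht, rfl⟩ := cube hy
  obtain ⟨k, hk, rfl⟩ := cube (zero_lt_one.trans_le hl)
  have e1 : (t ^ 3) ^ 2 / m ^ 3 = (t ^ 2 / m) ^ 3 := by field_simp
  have e2 : m ^ 3 * t ^ 3 = (m * t) ^ 3 := by ring
  have hq : 0 < t ^ 2 / m := by positivity
  rw [e1, e2, p13 hq, p23 hq, p43 hq, p23 ht, p23 hk, m13 hk, p23 (mul_pos hm ht)]
  have h1 : k * t ≤ m := by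
    have : (k * t) ^ 3 ≤ m ^ 3 := by rw [mul_pow]; exact h
    exact le_of_pow_le_pow_left₀ (by norm_num) hm.le this
  have h2 : t / m ≤ k⁻¹ := by
    rw [div_le_iff₀ hm, inv_mul_eq_div, le_div_iff₀ hk]; linarith
  have h3 : k ^ 2 * (t / m) ^ 3 ≤ k⁻¹ := by
    have h4 : (t / m) ^ 3 ≤ (k⁻¹) ^ 3 := pow_le_pow_left₀ (by positivity) h2 3
    calc k ^ 2 * (t / m) ^ 3 ≤ k ^ 2 * (k⁻¹) ^ 3 := mul_le_mul_of_nonneg_left h4 (by positivity)
      _ = k⁻¹ := by field_simp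
  have e3 : m ^ 3 / t ^ 3 * (C * t ^ 3 * (t ^ 2 / m) + C * c * t ^ 2 * (t ^ 2 / m) ^ 2 +
      C * c * k ^ 2 * (t ^ 2 / m) ^ 4) =
      C * (m * t) ^ 2 * (1 + c * (t / m) + c * (k ^ 2 * (t / m) ^ 3)) := by
    field_simp
  rw [e3]
  have h5 : 1 + c * (t / m) + c * (k ^ 2 * (t / m) ^ 3) ≤ 2 * (1 + c * k⁻¹) := by
    have c0 : 0 ≤ c := by linarith
    have a1 := mul_le_mul_of_nonneg_left h2 c0
    have a2 := mul_le_mul_of_nonneg_left h3 c0
    linarith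
  have h6 : 0 ≤ C * (m * t) ^ 2 := by positivity
  calc _ ≤ C * (m * t) ^ 2 * (2 * (1 + c * k⁻¹)) := mul_le_mul_of_nonneg_left h5 h6
    _ = _ := by ring

theorem hw_eq {M Y : ℝ} (hM : 0 < M) (hY : 0 < Y) {e : O} (he : Prim e) :
    (M * (Y / N e)) ^ (2 / 3 : ℝ) * min 1 (Y / N e / Real.sqrt M) =
      (M * Y) ^ (2 / 3 : ℝ) * hw (Y / Real.sqrt M) e := by
  have h1 : 0 < N e := zero_lt_one.trans_le (N1 he)
  unfold hw
  have e1 : Y / N e / Real.sqrt M = Y / Real.sqrt M / N e := by ring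
  have e2 : (M * (Y / N e)) ^ (2 / 3 : ℝ) = (M * Y) ^ (2 / 3 : ℝ) * N e ^ (-2 / 3 : ℝ) := by
    rw [← mul_div_assoc, Real.div_rpow (mul_pos hM hY).le h1.le, div_eq_mul_inv,
      ← Real.rpow_neg h1.le]
    norm_num
  rw [e1, e2]; ring

end L5M

open L5M in
theorem wsS (h1 : ST1Stmt) (h2 : ST2Stmt) (hB : BAStmt) : WSStmt := by
  obtain ⟨C2, hC2, H2⟩ := h2
  obtain ⟨C, hC, HB⟩ := hB
  refine ⟨12 + 6 * C2 * C, by positivity, fun l Z c M Y hl hc hH hY hZ hlY S T a hS hT => ?_⟩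
  have hM : 0 < M := lt_of_lt_of_le (by positivity) hlY
  have hD : 0 < Y / Real.sqrt M := div_pos hY (Real.sqrt_pos.2 hM)
  set a' : O → ℂ := fun n => if n ∈ T then a n else 0 with ha'
  have hTS : T ⊆ SQ Y := fun n hn => mSQ.2 ⟨(hT n hn).1, (hT n hn).2.2⟩
  have e1 : ∀ m, ∑ n ∈ T, a n * cub m n = ∑ n ∈ SQ Y, a' n * cub m n := by
    intro m
    rw [← Finset.sum_subset hTS (f := fun n => a' n * cub m n) (fun n _ hn => by simp [ha', hn])]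
    exact Finset.sum_congr rfl fun n hn => by simp [ha', hn]
  obtain ⟨g1, g2⟩ := h1 M Y a' hM
  have g3 := g2 S hS
  set E : ℝ := 2 * C * (1 + c * l ^ (-1 / 3 : ℝ)) with hE
  have hl3 : 0 ≤ l ^ (-1 / 3 : ℝ) := Real.rpow_nonneg (by linarith) _
  have hE0 : 0 ≤ E := by positivity
  have key : ∀ e ∈ SQ Y, (Fm (Pk M) Y (sh Y a' e)).re ≤ 4 * M * ‖a' e‖ ^ 2 +
      C2 * E * (M * Y) ^ (2 / 3 : ℝ) * (hw (Y / Real.sqrt M) e * ∑ n ∈ SQ Y, ‖sh Y a' e n‖ ^ 2) := by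
    intro e he
    have hs := mSQ.1 he
    have n1 := N1 hs.1.1
    have n0 : 0 < N e := by linarith
    have y1 : 1 ≤ Y / N e := (one_le_div n0).2 hs.2
    have y0 : 0 < Y / N e := by linarith
    have y2 : Y / N e ≤ Y := div_le_self hY.le n1
    have hsh : Shell (Y / N e) (sh Y a' e) := by
      intro n hn
      unfold sh at hn
      have hm : e * n ∈ T := by
        by_contra hc
        apply hn
        simp [ha', hc]
      have := (hT _ hm).2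
      rw [bas.b1.N_mul] at this
      constructor
      · rw [div_div, mul_comm, ← div_div, div_lt_iff₀ n0]; linarith [this.1]
      · rw [le_div_iff₀ n0]; linarith [this.2]
    have hb := H2 M Y (Y / N e) (C * (Y / N e)) (C * c * (Y / N e) ^ (2 / 3 : ℝ))
      (C * c * l ^ (2 / 3 : ℝ)) (sh Y a' e) hM y0 (by positivity) (by positivity) (by positivity) hsh
      (fun K hK => HB l c K (Y / N e) hl hc hK y1 fun M' hM' =>
        hH M' (Y / N e) hM' y0 ((min_le_right _ _).trans (y2.trans hZ)))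
    have e2 : sh Y a' e 1 = a' e := by simp [sh, he]
    rw [e2] at hb
    have al := alg hC hc hl hM y0 ((mul_le_mul_of_nonneg_left y2 (by linarith)).trans hlY)
    have hq := hw_eq hM hY hs.1.1
    have s0 : 0 ≤ ∑ n ∈ SQ Y, ‖sh Y a' e n‖ ^ 2 := Finset.sum_nonneg fun _ _ => by positivity
    have m0 : 0 ≤ min 1 (Y / N e / Real.sqrt M) := le_min zero_le_one (by positivity)
    refine hb.trans (add_le_add le_rfl ?_)
    have := mul_le_mul_of_nonneg_left al (mul_nonneg (mul_nonneg hC2 m0) s0)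
    refine le_trans (le_of_eq (by ring)) (this.trans (le_of_eq ?_))
    calc _ = C2 * E * ((M * (Y / N e)) ^ (2 / 3 : ℝ) * min 1 (Y / N e / Real.sqrt M)) *
          ∑ n ∈ SQ Y, ‖sh Y a' e n‖ ^ 2 := by rw [hE]; ring
      _ = _ := by rw [hq]; ring
  have e3 : ∑ e ∈ SQ Y, ‖a' e‖ ^ 2 = ∑ n ∈ T, ‖a n‖ ^ 2 := by
    rw [← Finset.sum_subset hTS (f := fun n => ‖a' n‖ ^ 2) (fun n _ hn => by simp [ha', hn])]
    exact Finset.sum_congr rfl fun n hn => by simp [ha', hn]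
  have e4 : ∑ e ∈ SQ Y, hw (Y / Real.sqrt M) e * ∑ n ∈ SQ Y, ‖sh Y a' e n‖ ^ 2 =
      ∑ n ∈ T, ‖a n‖ ^ 2 * rho (Y / Real.sqrt M) n := by
    have := swap Y T (fun n hn => ⟨(hT n hn).1, (hT n hn).2.2⟩)
      (fun d n => ‖a n‖ ^ 2 * hw (Y / Real.sqrt M) d)
    simp only [rho, Finset.mul_sum]
    rw [this]
    refine Finset.sum_congr rfl fun e _ => ?_
    rw [Finset.sum_filter]
    refine Finset.sum_congr rfl fun n _ => ?_
    by_cases hn : e * n ∈ T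
    · simp [sh, ha', hn, hTS hn, mul_comm]
    · simp [sh, ha', hn]
  have g4 := Finset.sum_le_sum key
  rw [Finset.sum_add_distrib, ← Finset.mul_sum, ← Finset.mul_sum, e3, e4] at g4
  simp only [e1]
  have s1 : 0 ≤ ∑ n ∈ T, ‖a n‖ ^ 2 := Finset.sum_nonneg fun _ _ => by positivity
  have s2 : 0 ≤ ∑ n ∈ T, ‖a n‖ ^ 2 * rho (Y / Real.sqrt M) n := Finset.sum_nonneg fun n hn =>
    mul_nonneg (by positivity) (rho_nonneg hD (bas.b2.ne _ (hT n hn).1.1))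
  have p0 : 0 ≤ (M * Y) ^ (2 / 3 : ℝ) := by positivity
  have q1 : 0 ≤ C2 * C * (M * ∑ n ∈ T, ‖a n‖ ^ 2) := by positivity
  have q2 : 0 ≤ (1 + c * l ^ (-1 / 3 : ℝ)) * (M * Y) ^ (2 / 3 : ℝ) *
      ∑ n ∈ T, ‖a n‖ ^ 2 * rho (Y / Real.sqrt M) n := by positivity
  rw [hE] at g4
  nlinarith [g1, g3, g4, q1, q2]

end Vale.Agent.P006
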