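import Vale.Agent.P006.L.H16

/-! Removal of the divisor weight. -/

noncomputable section
open Complex
open scoped Classical ComplexConjugate

namespace Vale.Agent.P006
open Vale.Agent.P026 W1 H16

namespace L6M

theorem cs {ι : Type} (s : Finset ι) (w : ι → ℝ) (z : ι → ℂ) (hw : ∀ i ∈ s, 0 < w i) :
    ‖∑ i ∈ s, z i‖ ^ 2 ≤ (∑ i ∈ s, w i) * ∑ i ∈ s, ‖z i‖ ^ 2 / w i := by
  have h1 : ‖∑ i ∈ s, z i‖ ^ 2 ≤ (∑ i ∈ s, ‖z i‖) ^ 2 :=
    pow_le_pow_left₀ (norm_nonneg _) (norm_sum_le _ _) 2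
  refine h1.trans ?_
  refine Finset.sum_sq_le_sum_mul_sum_of_sq_le_mul s (fun i hi => (hw i hi).le)
    (fun i hi => div_nonneg (by positivity) (hw i hi).le) fun i hi => le_of_eq ?_
  have := (hw i hi).ne'
  field_simp

theorem min_le {x : ℝ} (hx : 0 < x) : min 1 x ≤ x ^ (2 / 3 : ℝ) := by
  rcases le_total x 1 with h | h
  · refine (min_le_right _ _).trans ?_
    conv_lhs => rw [← Real.rpow_one x]
    exact Real.rpow_le_rpow_of_exponent_ge hx h (by norm_num)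
  · exact (min_le_left _ _).trans (Real.one_le_rpow h (by norm_num))

theorem wt_le {M Y : ℝ} (hM : 0 < M) (hY : 0 < Y) {d : O} (hd : Prim d) :
    hw (Y / Real.sqrt M) d * (M + (M * (Y / N d)) ^ (2 / 3 : ℝ)) ≤
      2 * (M * Y) ^ (2 / 3 : ℝ) * N d ^ (-(4 / 3) : ℝ) := by
  have n0 : 0 < N d := zero_lt_one.trans_le (N1 hd)
  have s0 : 0 < Real.sqrt M := Real.sqrt_pos.2 hM
  have a1 := min_le (x := Y / Real.sqrt M / N d) (by positivity)
  have a2 : min 1 (Y / Real.sqrt M / N d) ≤ 1 := min_le_left _ _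
  unfold hw
  generalize min 1 (Y / Real.sqrt M / N d) = u at a1 a2
  obtain ⟨s, hs, e⟩ := cube s0
  have eM : M = (s ^ 2) ^ 3 := by
    rw [← Real.sq_sqrt hM.le, e]; ring
  obtain ⟨t, ht, rfl⟩ := cube hY
  obtain ⟨k, hk, ek⟩ := cube n0
  rw [e, ek] at a1
  rw [ek, eM]
  have e1 : t ^ 3 / s ^ 3 / k ^ 3 = (t / s / k) ^ 3 := by field_simp
  have e2 : (s ^ 2) ^ 3 * (t ^ 3 / k ^ 3) = (s ^ 2 * t / k) ^ 3 := by field_simp
  have e3 : (s ^ 2) ^ 3 * t ^ 3 = (s ^ 2 * t) ^ 3 := by ring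
  rw [e1, p23 (by positivity)] at a1
  rw [e2, e3, p23 (by positivity), p23 (by positivity), m23 hk, m43 hk]
  have b1 := mul_le_mul_of_nonneg_left a1 (show 0 ≤ (k ^ 2)⁻¹ * (s ^ 2) ^ 3 by positivity)
  have b2 := mul_le_mul_of_nonneg_left a2 (show 0 ≤ (k ^ 2)⁻¹ * (s ^ 2 * t / k) ^ 2 by positivity)
  have c1 : (k ^ 2)⁻¹ * (s ^ 2) ^ 3 * (t / s / k) ^ 2 = (s ^ 2 * t) ^ 2 * (k ^ 4)⁻¹ := by field_simp
  have c2 : (k ^ 2)⁻¹ * (s ^ 2 * t / k) ^ 2 * 1 = (s ^ 2 * t) ^ 2 * (k ^ 4)⁻¹ := by field_simp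
  rw [c1] at b1
  rw [c2] at b2
  nlinarith [b1, b2]

end L6M

open L6M in
theorem trS : TRStmt := by
  have hz := bas.b3.summ (4 / 3) (by norm_num)
  set ζ : ℝ := ∑' a : O, N a ^ (-(4 / 3) : ℝ) with hζ
  have z0 : 0 ≤ ζ := tsum_nonneg fun a => Real.rpow_nonneg (N0 a) _
  refine ⟨2 * ζ, by positivity, fun M Y A E hM hY hA hE hW S T a hS hT => ?_⟩
  have s0 : 0 < Real.sqrt M := Real.sqrt_pos.2 hM
  have y0 : 0 < Y := s0.trans_le hY
  set D : ℝ := Y / Real.sqrt M with hD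
  have D1 : 1 ≤ D := (one_le_div s0).2 hY
  have D0 : 0 < D := by linarith
  have hT' : ∀ n ∈ T, SP n ∧ N n ≤ Y := fun n hn => ⟨(hT n hn).1, (hT n hn).2.2⟩
  have r1 : ∀ n ∈ T, 1 ≤ rho D n := fun n hn => one_le_rho D1 (bas.b2.ne _ (hT n hn).1.1)
  set Td : O → Finset O := fun d => (SQ Y).filter (fun k => d * k ∈ T) with hTd
  set c : O → O → ℂ := fun d k => a (d * k) * ((hw D d / rho D (d * k) : ℝ) : ℂ) with hc
  set b : O → ℝ := fun d => M + (M * (Y / N d)) ^ (2 / 3 : ℝ) with hb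
  have b0 : ∀ d, 0 < b d := fun d => by
    have : 0 ≤ (M * (Y / N d)) ^ (2 / 3 : ℝ) :=
      Real.rpow_nonneg (mul_nonneg hM.le (div_nonneg y0.le (N0 d))) _
    simp only [hb]; linarith
  have w0 : ∀ d ∈ SQ Y, 0 < hw D d * b d := fun d hd => mul_pos (hw_pos D0 (mSQ.1 hd).1.1) (b0 d)
  have e1 : ∀ m, ∑ n ∈ T, a n * cub m n = ∑ d ∈ SQ Y, cub m d * ∑ k ∈ Td d, c d k * cub m k := by
    intro m
    have := swap Y T hT' (fun d n => a n * ((hw D d / rho D n : ℝ) : ℂ) * cub m n)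
    calc _ = ∑ n ∈ T, ∑ d ∈ dv n, a n * ((hw D d / rho D n : ℝ) : ℂ) * cub m n := by
          refine Finset.sum_congr rfl fun n hn => ?_
          rw [← Finset.sum_mul, ← Finset.mul_sum, ← Complex.ofReal_sum, ← Finset.sum_div]
          have : rho D n ≠ 0 := by have := r1 n hn; positivity
          change _ = a n * ((rho D n / rho D n : ℝ) : ℂ) * _
          rw [div_self this]; simp
      _ = _ := by
          rw [this]
          refine Finset.sum_congr rfl fun d hd => ?_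
          rw [Finset.mul_sum]
          refine Finset.sum_congr rfl fun k hk => ?_
          have k1 := (mSQ.1 (Finset.mem_filter.1 hk).1).1.1
          rw [bas.b6.mul_r m d k (bas.b2.ne _ (mSQ.1 hd).1.1) (bas.b2.ne _ k1)]
          simp only [hc]; ring
  have key : ∀ d ∈ SQ Y, (∑ m ∈ S, ‖∑ k ∈ Td d, c d k * cub m k‖ ^ 2) / (hw D d * b d) ≤
      (A + E) * ∑ k ∈ Td d, ‖a (d * k)‖ ^ 2 * (hw D d / rho D (d * k)) := by
    intro d hd
    have hs := mSQ.1 hd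
    have n1 := N1 hs.1.1
    have n0 : 0 < N d := by linarith
    have h0 := hw_pos D0 hs.1.1
    have y2 : Y / N d ≤ Y := div_le_self y0.le n1
    have hk : ∀ k ∈ Td d, SP k ∧ Y / N d / 2 < N k ∧ N k ≤ Y / N d := by
      intro k hk
      obtain ⟨k1, k2⟩ := Finset.mem_filter.1 hk
      have := (hT _ k2).2
      rw [bas.b1.N_mul] at this
      refine ⟨(mSQ.1 k1).1, ?_, ?_⟩
      · rw [div_div, mul_comm, ← div_div, div_lt_iff₀ n0]; linarith [this.1]
      · rw [le_div_iff₀ n0]; linarith [this.2]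
    have g := hW (Y / N d) (div_pos y0 n0) y2 S (Td d) (c d) hS hk
    set R : ℝ := ∑ k ∈ Td d, ‖c d k‖ ^ 2 * rho D (d * k) with hR
    have g1 : ∑ k ∈ Td d, ‖c d k‖ ^ 2 ≤ R := Finset.sum_le_sum fun k hk =>
      le_mul_of_one_le_right (by positivity) (r1 _ (Finset.mem_filter.1 hk).2)
    have g2 : ∑ k ∈ Td d, ‖c d k‖ ^ 2 * rho (Y / N d / Real.sqrt M) k ≤ R :=
      Finset.sum_le_sum fun k hk => mul_le_mul_of_nonneg_left
        ((rho_mono (div_le_div_of_nonneg_right y2 s0.le) k).trans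
          (rho_dvd D0 (bas.b2.ne _ (hT _ (Finset.mem_filter.1 hk).2).1.1) (dvd_mul_left _ _)))
        (by positivity)
    have g3 : R = hw D d * ∑ k ∈ Td d, ‖a (d * k)‖ ^ 2 * (hw D d / rho D (d * k)) := by
      rw [hR, Finset.mul_sum]
      refine Finset.sum_congr rfl fun k hk => ?_
      have r := r1 _ (Finset.mem_filter.1 hk).2
      have r0 : rho D (d * k) ≠ 0 := by positivity
      simp only [hc, norm_mul, Complex.norm_real, Real.norm_eq_abs, mul_pow, sq_abs]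
      field_simp
    have R0 : 0 ≤ R := (Finset.sum_nonneg fun _ _ => by positivity).trans g1
    have p0 : 0 ≤ (M * (Y / N d)) ^ (2 / 3 : ℝ) := by positivity
    rw [div_le_iff₀ (w0 d hd)]
    have g4 := mul_le_mul_of_nonneg_left g1 (mul_nonneg hA hM.le)
    have g5 := mul_le_mul_of_nonneg_left g2 (mul_nonneg hE p0)
    have g6 : 0 ≤ A * ((M * (Y / N d)) ^ (2 / 3 : ℝ) * R) := by positivity
    have g7 : 0 ≤ E * (M * R) := by positivity
    calc _ ≤ (A + E) * (b d * R) := by simp only [hb]; nlinarith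
      _ = _ := by rw [g3]; ring
  have e2 : ∑ d ∈ SQ Y, ∑ k ∈ Td d, ‖a (d * k)‖ ^ 2 * (hw D d / rho D (d * k)) =
      ∑ n ∈ T, ‖a n‖ ^ 2 := by
    rw [← swap Y T hT' (fun d n => ‖a n‖ ^ 2 * (hw D d / rho D n))]
    refine Finset.sum_congr rfl fun n hn => ?_
    rw [← Finset.mul_sum, ← Finset.sum_div]
    have : rho D n ≠ 0 := by have := r1 n hn; positivity
    change _ * (rho D n / rho D n) = _
    rw [div_self this, mul_one]
  have e3 : ∑ d ∈ SQ Y, hw D d * b d ≤ 2 * (M * Y) ^ (2 / 3 : ℝ) * ζ := by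
    refine (Finset.sum_le_sum fun d hd => wt_le hM y0 (mSQ.1 hd).1.1).trans ?_
    rw [← Finset.mul_sum]
    exact mul_le_mul_of_nonneg_left (hz.sum_le_tsum _ fun a _ => Real.rpow_nonneg (N0 a) _)
      (by positivity)
  have W0 : 0 ≤ ∑ d ∈ SQ Y, hw D d * b d := Finset.sum_nonneg fun d hd => (w0 d hd).le
  calc ∑ m ∈ S, ‖∑ n ∈ T, a n * cub m n‖ ^ 2
      ≤ ∑ m ∈ S, (∑ d ∈ SQ Y, hw D d * b d) *
          ∑ d ∈ SQ Y, ‖∑ k ∈ Td d, c d k * cub m k‖ ^ 2 / (hw D d * b d) := by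
        refine Finset.sum_le_sum fun m _ => ?_
        rw [e1 m]
        refine (cs _ _ _ w0).trans (mul_le_mul_of_nonneg_left
          (Finset.sum_le_sum fun d hd => div_le_div_of_nonneg_right ?_ (w0 d hd).le) W0)
        rw [norm_mul]
        exact pow_le_pow_left₀ (by positivity)
          (mul_le_of_le_one_left (norm_nonneg _) (bas.b6.norm_le m d)) 2
    _ = (∑ d ∈ SQ Y, hw D d * b d) *
          ∑ d ∈ SQ Y, (∑ m ∈ S, ‖∑ k ∈ Td d, c d k * cub m k‖ ^ 2) / (hw D d * b d) := by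
        rw [← Finset.mul_sum, Finset.sum_comm]
        simp only [Finset.sum_div]
    _ ≤ (∑ d ∈ SQ Y, hw D d * b d) * ((A + E) * ∑ n ∈ T, ‖a n‖ ^ 2) := by
        refine mul_le_mul_of_nonneg_left ((Finset.sum_le_sum key).trans (le_of_eq ?_)) W0
        rw [← Finset.mul_sum, e2]
    _ ≤ (2 * (M * Y) ^ (2 / 3 : ℝ) * ζ) * ((A + E) * ∑ n ∈ T, ‖a n‖ ^ 2) :=
        mul_le_mul_of_nonneg_right e3 (mul_nonneg (add_nonneg hA hE)
          (Finset.sum_nonneg fun _ _ => by positivity))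
    _ = _ := by ring

end Vale.Agent.P006
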