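import Vale.Agent.P006.SL
import Vale.Agent.P006.CLS
import Vale.Agent.P026.M.W1

/-! P006: duality and dyadic assembly for the sharp cubic large sieve. -/

noncomputable section
open Complex
open scoped Classical ComplexConjugate

namespace Vale.Agent.P006
open Vale.Agent.P026

theorem duS : DUStmt := fun M X B B0 h S T a hS hT =>
  CLS.dual S T (fun m n => cub m n) B0 (fun c => le_trans (le_of_eq (Finset.sum_congr rfl
    fun n hn => by rw [Finset.sum_congr rfl fun m hm => by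
      rw [W1.cr m n (hS m hm).1.1 (hT n hn).1.1]])) (h T S c hT hS)) a

namespace L7M

/-- weighted Cauchy-Schwarz -/
theorem wcs (J : Finset ℕ) (z : ℕ → ℂ) :
    ‖∑ i ∈ J, z i‖ ^ 2 ≤ 3 * ∑ i ∈ J, ‖z i‖ ^ 2 / (2 / 3) ^ i := by
  have h1 := Finset.sum_sq_le_sum_mul_sum_of_sq_eq_mul J (r := fun i => ‖z i‖)
    (f := fun i => (2 / 3 : ℝ) ^ i) (g := fun i => ‖z i‖ ^ 2 / (2 / 3) ^ i)
    (fun _ _ => by positivity) (fun _ _ => by positivity) (fun _ _ => by field_simp)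
  have h2 : ∑ i ∈ J, (2 / 3 : ℝ) ^ i ≤ 3 := by
    have := (summable_geometric_of_lt_one (r := (2 / 3 : ℝ)) (by norm_num)
      (by norm_num)).sum_le_tsum J fun _ _ => by positivity
    rw [tsum_geometric_of_lt_one (by norm_num) (by norm_num)] at this
    linarith
  refine ((pow_le_pow_left₀ (norm_nonneg _) (norm_sum_le _ _) 2).trans h1).trans ?_
  exact mul_le_mul_of_nonneg_right h2 (Finset.sum_nonneg fun _ _ => by positivity)

theorem geo {x : ℝ} (hx : 0 ≤ x) (i : ℕ) :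
    (x / 2 ^ i) ^ (2 / 3 : ℝ) ≤ x ^ (2 / 3 : ℝ) * (2 / 3) ^ i := by
  have h : ((1 / 2 : ℝ)) ^ (2 / 3 : ℝ) ≤ 2 / 3 := by
    refine le_of_pow_le_pow_left₀ three_ne_zero (by norm_num) ?_
    rw [← Real.rpow_natCast, ← Real.rpow_mul (by norm_num)]
    norm_num
  rw [div_eq_mul_one_div, Real.mul_rpow hx (by positivity), ← one_div_pow,
    ← Real.rpow_natCast (1 / 2), ← Real.rpow_mul (by norm_num), mul_comm (i : ℝ),
    Real.rpow_mul (by norm_num), Real.rpow_natCast]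
  gcongr

end L7M

open L7M in
theorem asS (hC : CLStmt) (hD : DUStmt) : ASStmt := by
  obtain ⟨C, C0, hC⟩ := hC
  have hB := W1.bas
  refine ⟨4 * C + 6, by positivity, fun M X E M1 X0 E0 h S T a hS hT => ?_⟩
  have M0 : 0 ≤ M := by linarith
  have h0 : LB M √M (C * (M + √M ^ 2)) := hD _ _ _ (by positivity) fun S T a hS hT => by
    have := hC √M M (S.image fun n => (n, 1)) T a (Real.one_le_sqrt.2 M1) M1 (fun x hx => by
      obtain ⟨n, hn, rfl⟩ := Finset.mem_image.1 hx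
      simp only [mul_one]
      exact ⟨(hS n hn).1.1, hB.b2.one, (hS n hn).1.2, (hS n hn).2⟩)
      (fun n hn => ⟨(hT n hn).1.1, (hT n hn).2⟩)
    rw [Finset.sum_image fun _ _ _ _ e => (Prod.ext_iff.1 e).1] at this
    simpa only [one_pow, mul_one] using this
  rw [Real.sq_sqrt M0] at h0
  have n0 : ∀ n ∈ T, 0 < N n := fun n hn =>
    lt_of_lt_of_le one_pos (hB.b1.N_one_le _ (hB.b2.ne _ (hT n hn).1.1))
  have ex : ∀ n ∈ T, ∃ j : ℕ, X / 2 ^ j / 2 < N n ∧ N n ≤ X / 2 ^ j := fun n hn => by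
    obtain ⟨j, a1, a2⟩ := exists_nat_pow_near ((one_le_div (n0 n hn)).2 (hT n hn).2) one_lt_two
    rw [le_div_iff₀ (n0 n hn)] at a1
    rw [div_lt_iff₀ (n0 n hn), pow_succ] at a2
    refine ⟨j, ?_, ?_⟩
    · rw [div_div, div_lt_iff₀ (by positivity)]; linarith
    · rw [le_div_iff₀ (by positivity)]; linarith
  choose! j j1 j2 using ex
  set T0 := T.filter (fun n => N n ≤ √M) with hT0
  set T1 := T.filter (fun n => ¬ N n ≤ √M) with hT1
  have k0 := h0 S T0 a hS fun n hn =>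
    ⟨(hT n (Finset.mem_filter.1 hn).1).1, (Finset.mem_filter.1 hn).2⟩
  have mp : ∀ n ∈ T1, j n ∈ T1.image j := fun n hn => Finset.mem_image_of_mem j hn
  have k1 : ∑ m ∈ S, ‖∑ n ∈ T1, a n * cub m n‖ ^ 2 ≤
      3 * (E * (M * X) ^ (2 / 3 : ℝ) * ∑ n ∈ T1, ‖a n‖ ^ 2) := by
    simp only [← Finset.sum_fiberwise_of_maps_to mp]
    refine (Finset.sum_le_sum fun m _ => wcs _ _).trans ?_
    rw [← Finset.mul_sum, Finset.sum_comm, Finset.mul_sum _ _ (E * _)]
    gcongr with i hi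
    obtain ⟨n, hn, rfl⟩ := Finset.mem_image.1 hi
    obtain ⟨hn1, hn2⟩ := Finset.mem_filter.1 hn
    have := h (X / 2 ^ j n) ((not_le.1 hn2).le.trans (j2 n hn1))
      (div_le_self X0.le (one_le_pow₀ one_le_two)) S (T1.filter fun k => j k = j n) a
      (fun m hm => (hS m hm).2) fun k hk => by
        obtain ⟨a1, a2⟩ := Finset.mem_filter.1 hk
        have a3 := (Finset.mem_filter.1 a1).1
        exact ⟨(hT k a3).1, a2 ▸ j1 k a3, a2 ▸ j2 k a3⟩
    rw [← Finset.sum_div, div_le_iff₀ (by positivity)]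
    refine this.trans ?_
    rw [← mul_div_assoc, mul_right_comm (E * _) _ ((2 / 3 : ℝ) ^ j n),
      mul_assoc E _ ((2 / 3 : ℝ) ^ j n)]
    exact mul_le_mul_of_nonneg_right (mul_le_mul_of_nonneg_left (geo (mul_nonneg M0 X0.le) _) E0)
      (Finset.sum_nonneg fun _ _ => sq_nonneg _)
  have sp := Finset.sum_filter_add_sum_filter_not T (fun n => N n ≤ √M) fun n => ‖a n‖ ^ 2
  have p0 : 0 ≤ ∑ n ∈ T0, ‖a n‖ ^ 2 := Finset.sum_nonneg fun _ _ => by positivity
  have p1 : 0 ≤ ∑ n ∈ T1, ‖a n‖ ^ 2 := Finset.sum_nonneg fun _ _ => by positivity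
  have p2 : 0 ≤ E * (M * X) ^ (2 / 3 : ℝ) := by positivity
  calc _ ≤ ∑ m ∈ S, (2 * ‖∑ n ∈ T0, a n * cub m n‖ ^ 2 + 2 * ‖∑ n ∈ T1, a n * cub m n‖ ^ 2) :=
        Finset.sum_le_sum fun m _ => by
          rw [← Finset.sum_filter_add_sum_filter_not T (fun n => N n ≤ √M)]
          refine (pow_le_pow_left₀ (norm_nonneg _) (norm_add_le _ _) 2).trans ?_
          nlinarith [sq_nonneg (‖∑ n ∈ T0, a n * cub m n‖ - ‖∑ n ∈ T1, a n * cub m n‖)]
    _ ≤ 2 * (C * (M + M) * ∑ n ∈ T0, ‖a n‖ ^ 2) +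
        2 * (3 * (E * (M * X) ^ (2 / 3 : ℝ) * ∑ n ∈ T1, ‖a n‖ ^ 2)) := by
        rw [Finset.sum_add_distrib, ← Finset.mul_sum, ← Finset.mul_sum]
        gcongr
    _ ≤ _ := by
        rw [← sp, mul_assoc (4 * C + 6) E]
        generalize E * (M * X) ^ (2 / 3 : ℝ) = F at p2 ⊢
        nlinarith [mul_nonneg M0 p0, mul_nonneg M0 p1, mul_nonneg p2 p0, mul_nonneg p2 p1,
          mul_nonneg C0 (mul_nonneg M0 p1), mul_nonneg C0 (mul_nonneg p2 p0),
          mul_nonneg C0 (mul_nonneg p2 p1)]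

end Vale.Agent.P006
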