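import Vale.Agent.P006.SL
import Vale.Agent.P026.M.W1

noncomputable section
open Complex
open scoped Classical ComplexConjugate

namespace Vale.Agent.P006
open Vale.Agent.P026

namespace L8M

lemma nq0 (T : Finset O) (a : O → ℂ) : 0 ≤ ∑ n ∈ T, ‖a n‖ ^ 2 :=
  Finset.sum_nonneg fun _ _ => by positivity

lemma LB_mono {M M' X B B' : ℝ} (h : LB M' X B) (hM : M ≤ M') (hB : B ≤ B') : LB M X B' := by
  intro S T a hS hT
  refine (h S T a (fun m hm => ⟨(hS m hm).1, (hS m hm).2.trans hM⟩) hT).trans ?_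
  exact mul_le_mul_of_nonneg_right hB (nq0 T a)

lemma LA_mono {K X B B' : ℝ} (h : LA K X B) (hB : B ≤ B') : LA K X B' := by
  intro S T a hS hT
  exact (h S T a hS hT).trans (mul_le_mul_of_nonneg_right hB (nq0 T a))

lemma Ps_symm (l M X : ℝ) : Ps l M X = Ps l X M := by
  unfold Ps
  rw [min_comm, mul_comm M X, add_comm M X]

lemma Ps_ge (l M X : ℝ) (hl : 1 ≤ l) (hM : 0 < M) (hX : 0 < X) : M + X ≤ Ps l M X := by
  unfold Ps
  have h1 : 0 ≤ (M * X) ^ (2 / 3 : ℝ) := by positivity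
  have h3 : 0 < min M X := lt_min hM hX
  have h2 : 0 ≤ l ^ (2 / 3 : ℝ) * (min M X) ^ (4 / 3 : ℝ) := by positivity
  linarith

lemma HH_mono {l Z c c' : ℝ} (hl : 1 ≤ l) (h : HH l Z c) (hc : c ≤ c') : HH l Z c' := by
  intro M X hM hX hZ
  refine LB_mono (h M X hM hX hZ) le_rfl (mul_le_mul_of_nonneg_right hc ?_)
  have := Ps_ge l M X hl hM hX
  linarith

lemma triv (M X : ℝ) (hM : 0 < M) (hX : 0 < X) : LB M X (256 * (M * X)) := by
  have hB := W1.bas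
  intro S T a hS hT
  have hS' := hB.b3.card_le M S hM.le fun m hm => ⟨hB.b2.ne _ (hS m hm).1.1, (hS m hm).2⟩
  have hT' := hB.b3.card_le X T hX.le fun m hm => ⟨hB.b2.ne _ (hT m hm).1.1, (hT m hm).2⟩
  have hn := nq0 T a
  have h1 : ∀ m ∈ S, ‖∑ n ∈ T, a n * cub m n‖ ^ 2 ≤ 16 * X * ∑ n ∈ T, ‖a n‖ ^ 2 := by
    intro m _
    have h2 : ‖∑ n ∈ T, a n * cub m n‖ ≤ ∑ n ∈ T, ‖a n‖ := by
      refine (norm_sum_le _ _).trans (Finset.sum_le_sum fun n _ => ?_)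
      rw [norm_mul]
      exact mul_le_of_le_one_right (norm_nonneg _) (hB.b6.norm_le m n)
    calc ‖∑ n ∈ T, a n * cub m n‖ ^ 2 ≤ (∑ n ∈ T, ‖a n‖) ^ 2 :=
          pow_le_pow_left₀ (norm_nonneg _) h2 2
      _ ≤ T.card * ∑ n ∈ T, ‖a n‖ ^ 2 := sq_sum_le_card_mul_sum_sq
      _ ≤ _ := mul_le_mul_of_nonneg_right hT' hn
  refine (Finset.sum_le_card_nsmul _ _ _ h1).trans ?_
  rw [nsmul_eq_mul]
  calc (S.card : ℝ) * (16 * X * ∑ n ∈ T, ‖a n‖ ^ 2) ≤ (16 * M) * (16 * X * ∑ n ∈ T, ‖a n‖ ^ 2) :=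
        mul_le_mul_of_nonneg_right hS' (by positivity)
    _ = _ := by ring

lemma start (l Z : ℝ) (hl : 1 ≤ l) : HH l Z (256 * Z) := by
  intro M X hM hX hZ
  refine LB_mono (triv M X hM hX) le_rfl ?_
  have h1 := Ps_ge l M X hl hM hX
  have h2 : 0 < min M X := lt_min hM hX
  have h3 : M * X ≤ min M X * (M + X) := by
    rcases le_total M X with h | h
    · rw [min_eq_left h]; nlinarith
    · rw [min_eq_right h]; nlinarith
  have h4 : min M X * (M + X) ≤ Z * Ps l M X :=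
    mul_le_mul hZ h1 (by linarith) (by linarith)
  linarith

lemma small (M X B : ℝ) (hX : X < 1) : LB M X B := by
  have hB := W1.bas
  intro S T a _ hT
  have : T = ∅ := by
    refine Finset.eq_empty_of_forall_notMem fun n hn => ?_
    have := hB.b1.N_one_le n (hB.b2.ne _ (hT n hn).1.1)
    linarith [(hT n hn).2]
  subst this
  simp

lemma step (hWS : WSStmt) (hTR : TRStmt) (hAS : ASStmt) (hDU : DUStmt) :
    ∃ l A : ℝ, 1 ≤ l ∧ 1 ≤ A ∧ ∀ Z c, 1 ≤ c → HH l Z c → HH l Z (A + c / 2) := by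
  obtain ⟨Cw, hw0, hw⟩ := hWS
  obtain ⟨Ct, ht0, ht⟩ := hTR
  obtain ⟨Ca, ha0, ha⟩ := hAS
  obtain ⟨C1, hC1⟩ : ∃ C1, C1 = Ca * Ct * Cw := ⟨_, rfl⟩
  have h10 : 0 ≤ C1 := by rw [hC1]; positivity
  obtain ⟨l, hl⟩ : ∃ l, l = (2 * C1 + 1) ^ 3 := ⟨_, rfl⟩
  have hl1 : 1 ≤ l := by rw [hl]; exact one_le_pow₀ (by linarith)
  have hl3 : l ^ (-1 / 3 : ℝ) = (2 * C1 + 1)⁻¹ := by
    rw [hl, ← Real.rpow_natCast, ← Real.rpow_mul (by positivity), ← Real.rpow_neg_one]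
    norm_num
  have hl4 : C1 * l ^ (-1 / 3 : ℝ) ≤ 1 / 2 := by
    rw [hl3, ← div_eq_mul_inv, div_le_iff₀ (by positivity)]
    linarith
  have hl5 : 0 ≤ l ^ (-1 / 3 : ℝ) := by positivity
  refine ⟨l, Ca * l + 2 * C1 + 1, hl1, by have : 0 ≤ Ca * l := by positivity
                                          linarith, ?_⟩
  intro Z c hc hH
  have key : ∀ M X : ℝ, 0 < M → 0 < X → X ≤ M → X ≤ Z →
      LB M X ((Ca * l + 2 * C1 + 1 + c / 2) * Ps l M X) := by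
    intro M X hM hX hXM hXZ
    rcases lt_or_ge X 1 with hX1 | hX1
    · exact small M X _ hX1
    obtain ⟨M1, hM1⟩ : ∃ M1, M1 = max M (l * X) := ⟨_, rfl⟩
    have g1 : M ≤ M1 := hM1 ▸ le_max_left _ _
    have g2 : l * X ≤ M1 := hM1 ▸ le_max_right _ _
    have h1 := ha M1 X (Ct * (Cw + Cw * (1 + c * l ^ (-1 / 3 : ℝ)))) (by linarith) hX
      (by positivity) (by
        intro Y hY1 hY2
        refine ht M1 Y Cw _ (by linarith) hY1 hw0 (by positivity) ?_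
        intro Y' hY' hY'2
        refine hw l Z c M1 Y' hl1 hc hH hY' (by linarith) ?_
        have : l * Y' ≤ l * X := mul_le_mul_of_nonneg_left (by linarith) (by linarith)
        linarith)
    refine LB_mono h1 g1 ?_
    obtain ⟨P2, hP2⟩ : ∃ P2, P2 = (M * X) ^ (2 / 3 : ℝ) + l ^ (2 / 3 : ℝ) * X ^ (4 / 3 : ℝ) :=
      ⟨_, rfl⟩
    have e1 : Ps l M X = M + X + P2 := by
      unfold Ps
      rw [min_eq_right hXM, hP2]; ring
    have p1 : 0 ≤ (M * X) ^ (2 / 3 : ℝ) := by positivity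
    have p2 : 0 ≤ l ^ (2 / 3 : ℝ) * X ^ (4 / 3 : ℝ) := by positivity
    have hP0 : 0 ≤ P2 := by rw [hP2]; positivity
    have g3 : (M1 * X) ^ (2 / 3 : ℝ) ≤ P2 := by
      rcases le_total M (l * X) with h | h
      · rw [hM1, max_eq_right h]
        have : (l * X * X) ^ (2 / 3 : ℝ) = l ^ (2 / 3 : ℝ) * X ^ (4 / 3 : ℝ) := by
          rw [mul_assoc, Real.mul_rpow (by linarith) (by positivity), Real.mul_rpow hX.le hX.le,
            ← Real.rpow_add hX]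
          norm_num
        rw [this, hP2]; linarith
      · rw [hM1, max_eq_left h, hP2]; linarith
    have g4 : M1 ≤ l * (M + X) := by
      rw [hM1]
      refine max_le ?_ ?_ <;> nlinarith
    have g5 : Ca * (Ct * (Cw + Cw * (1 + c * l ^ (-1 / 3 : ℝ)))) ≤ 2 * C1 + c / 2 := by
      have : Ca * (Ct * (Cw + Cw * (1 + c * l ^ (-1 / 3 : ℝ)))) =
          2 * C1 + c * (C1 * l ^ (-1 / 3 : ℝ)) := by rw [hC1]; ring
      rw [this]
      have : c * (C1 * l ^ (-1 / 3 : ℝ)) ≤ c * (1 / 2) :=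
        mul_le_mul_of_nonneg_left hl4 (by linarith)
      linarith
    have g6 : Ca * (Ct * (Cw + Cw * (1 + c * l ^ (-1 / 3 : ℝ)))) * (M1 * X) ^ (2 / 3 : ℝ) ≤
        (2 * C1 + c / 2) * P2 :=
      mul_le_mul g5 g3 (Real.rpow_nonneg (by nlinarith) _) (by linarith)
    have g7 : Ca * M1 ≤ Ca * (l * (M + X)) := mul_le_mul_of_nonneg_left g4 ha0
    rw [e1]
    have g8 : 0 ≤ Ca * l * P2 := by positivity
    have g9 : 0 ≤ (2 * C1 + 1 + c / 2) * (M + X) := by positivity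
    nlinarith
  intro M X hM hX hZ
  rcases le_total X M with h | h
  · exact key M X hM hX h (by rwa [min_eq_right h] at hZ)
  · rw [Ps_symm]
    refine hDU X M _ ?_ (key X M hX hM h (by rwa [min_eq_left h] at hZ))
    have h2 := Ps_ge l X M hl1 hX hM
    have : 0 ≤ Ca * l := by positivity
    exact mul_nonneg (by linarith) (by linarith)

lemma fin (hWS : WSStmt) (hTR : TRStmt) (hAS : ASStmt) (hDU : DUStmt) :
    ∃ l c : ℝ, 1 ≤ l ∧ 1 ≤ c ∧ ∀ M X, 0 < M → 0 < X → LB M X (c * Ps l M X) := by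
  obtain ⟨l, A, hl, hA, h⟩ := step hWS hTR hAS hDU
  refine ⟨l, 2 * A + 1, hl, by linarith, ?_⟩
  intro M X hM hX
  obtain ⟨Z, hZ⟩ : ∃ Z, Z = min M X := ⟨_, rfl⟩
  have hZ0 : 0 < Z := hZ ▸ lt_min hM hX
  have h1 : ∀ k : ℕ, HH l Z (2 * A + 256 * Z / 2 ^ k) := by
    intro k
    induction k with
    | zero => exact HH_mono hl (start l Z hl) (by simp; linarith)
    | succ k ih =>
      have h2 : 0 ≤ 256 * Z / 2 ^ k := by positivity
      refine HH_mono hl (h Z _ (by linarith) ih) (le_of_eq ?_)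
      rw [pow_succ]; field_simp; ring
  obtain ⟨k, hk⟩ := pow_unbounded_of_one_lt (256 * Z) (one_lt_two (α := ℝ))
  have h3 : 256 * Z / 2 ^ k ≤ 1 := by
    rw [div_le_one (by positivity)]; exact hk.le
  exact HH_mono hl (h1 k) (by linarith) M X hM hX hZ.ge

end L8M

open L8M in
theorem slS (hBA : BAStmt) (hWS : WSStmt) (hTR : TRStmt) (hAS : ASStmt) (hDU : DUStmt) :
    SLStmt ∧ SLAStmt := by
  obtain ⟨l, c, hl, hc, h⟩ := fin hWS hTR hAS hDU
  have hl2 : 1 ≤ l ^ (2 / 3 : ℝ) := Real.one_le_rpow hl (by norm_num)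
  constructor
  · refine ⟨c * (1 + l ^ (2 / 3 : ℝ)), by positivity, fun M X hM hX => ?_⟩
    refine LB_mono (h M X hM hX) le_rfl ?_
    rw [mul_assoc]
    refine mul_le_mul_of_nonneg_left ?_ (by linarith)
    unfold Ps
    have h0 : 0 < min M X := lt_min hM hX
    have h1 : (min M X) ^ (4 / 3 : ℝ) ≤ (M * X) ^ (2 / 3 : ℝ) := by
      have : (min M X) ^ (4 / 3 : ℝ) = (min M X * min M X) ^ (2 / 3 : ℝ) := by
        rw [Real.mul_rpow h0.le h0.le, ← Real.rpow_add h0]; norm_num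
      rw [this]
      exact Real.rpow_le_rpow (by positivity)
        (mul_le_mul (min_le_left _ _) (min_le_right _ _) h0.le hM.le) (by norm_num)
    have h2 : l ^ (2 / 3 : ℝ) * (min M X) ^ (4 / 3 : ℝ) ≤ l ^ (2 / 3 : ℝ) * (M * X) ^ (2 / 3 : ℝ) :=
      mul_le_mul_of_nonneg_left h1 (by linarith)
    have h3 : 0 ≤ l ^ (2 / 3 : ℝ) * (M + X) := by positivity
    nlinarith
  · obtain ⟨Cb, hb0, hb⟩ := hBA
    refine ⟨Cb * c * l ^ (2 / 3 : ℝ), by positivity, fun K X hK hX => ?_⟩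
    refine LA_mono (hb l c K X hl hc hK hX fun M hM => h M X hM (by linarith)) ?_
    have a1 : Cb * c ≤ Cb * c * l ^ (2 / 3 : ℝ) := le_mul_of_one_le_right (by positivity) hl2
    have a2 : Cb ≤ Cb * c := le_mul_of_one_le_right hb0 hc
    have a3 : Cb ≤ Cb * c * l ^ (2 / 3 : ℝ) := a2.trans a1
    have hX0 : 0 ≤ X := by linarith
    have hK0 : 0 ≤ K := by linarith
    gcongr

end Vale.Agent.P006
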