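import Vale.Agent.P006.SL
import Vale.Agent.P006.CLS
import Vale.Agent.P026.M.W2a

/-! P006: the classical large sieve in the form `CLStmt`. -/

namespace Vale.Agent.P006
open Vale.Agent.P026

theorem clS : CLStmt := by
  obtain ⟨C, C0, h⟩ := CLS.cubic' W1.bas W1.cr W1.hd W2.po1 W2.gf
  exact ⟨C, C0, fun Q X S T a _ X1 hS hT => h S T a X Q (zero_le_one.trans X1) hS hT⟩

end Vale.Agent.P006
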