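import Vale.Agent.P006.L.L1
import Vale.Agent.P006.L.L2
import Vale.Agent.P006.L.L3
import Vale.Agent.P006.L.L4
import Vale.Agent.P006.L.L5
import Vale.Agent.P006.L.L6
import Vale.Agent.P006.L.L7
import Vale.Agent.P006.L.L8
import Vale.Agent.P006.L.L9

namespace Vale.Agent.P006.LAll

theorem st1 : ST1Stmt := st1S (kiS ktS kpS)
theorem ba : BAStmt := baS clS
theorem ws : WSStmt := wsS st1 st2S ba
theorem sl : SLStmt := (slS ba ws trS (asS clS duS) duS).1
theorem sla : SLAStmt := (slS ba ws trS (asS clS duS) duS).2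

end Vale.Agent.P006.LAll
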