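import Vale.Agent.P006.SL

noncomputable section
open Complex
open scoped Classical ComplexConjugate

namespace Vale.Agent.P006
open Vale.Agent.P026

namespace L4M

theorem decP (hB : Bas) (D : O) (hD : Prim D) : ∃ k1 k2 h : O, Prim k1 ∧ Prim k2 ∧
    Squarefree (k1 * k2) ∧ h ≠ 0 ∧ D = k1 * k2 ^ 2 * h ^ 3 := by
  refine hB.b2.ind (fun D => ∃ k1 k2 h : O, Prim k1 ∧ Prim k2 ∧
    Squarefree (k1 * k2) ∧ h ≠ 0 ∧ D = k1 * k2 ^ 2 * h ^ 3) ?_ ?_ ?_ D hD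
  · exact ⟨1, 1, 1, hB.b2.one, hB.b2.one, by simp, one_ne_zero, by ring⟩
  · intro p k hp hP
    have hs : Squarefree p := hp.irreducible.squarefree
    have h0 : p ^ (k / 3) ≠ 0 := pow_ne_zero _ hp.ne_zero
    have e : p ^ k = p ^ (k % 3) * (p ^ (k / 3)) ^ 3 := by
      rw [← pow_mul, ← pow_add]; congr 1; omega
    have : k % 3 = 0 ∨ k % 3 = 1 ∨ k % 3 = 2 := by omega
    rcases this with h | h | h
    · exact ⟨1, 1, _, hB.b2.one, hB.b2.one, by simp, h0, by rw [e, h]; ring⟩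
    · exact ⟨p, 1, _, hP, hB.b2.one, by simpa using hs, h0, by rw [e, h]; ring⟩
    · exact ⟨1, p, _, hB.b2.one, hP, by simpa using hs, h0, by rw [e, h]; ring⟩
  · rintro a b - - hab ⟨k1, k2, h, p1, p2, s, h0, rfl⟩ ⟨k1', k2', h', p1', p2', s', h0', rfl⟩
    refine ⟨k1 * k1', k2 * k2', h * h', hB.b2.mul _ _ p1 p1', hB.b2.mul _ _ p2 p2', ?_,
      mul_ne_zero h0 h0', by ring⟩
    rw [show k1 * k1' * (k2 * k2') = k1 * k2 * (k1' * k2') by ring]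
    refine squarefree_mul_iff.2 ⟨IsCoprime.isRelPrime ?_, s, s'⟩
    exact (hab.of_isCoprime_of_dvd_left ⟨k2 * h ^ 3, by ring⟩).of_isCoprime_of_dvd_right
      ⟨k2' * h' ^ 3, by ring⟩

def U18 : Finset O := (U6 ×ˢ Finset.range 3).image fun x => x.1 * lam ^ x.2

theorem card18 : (U18.card : ℝ) ≤ 18 := by
  have h1 : U6.card ≤ 6 := Finset.card_le_six
  have h2 : U18.card ≤ (U6 ×ˢ Finset.range 3).card := Finset.card_image_le
  rw [Finset.card_product, Finset.card_range] at h2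
  exact_mod_cast (by omega : U18.card ≤ 18)

theorem dec (hB : Bas) (k : O) (hk : k ≠ 0) : ∃ y : (O × O) × O × O, y.1.1 ∈ U18 ∧ y.1.1 ≠ 0 ∧
    y.1.2 ≠ 0 ∧ Prim y.2.1 ∧ Prim y.2.2 ∧ Squarefree (y.2.1 * y.2.2) ∧
    k = y.2.1 * y.2.2 ^ 2 * (y.1.1 * y.1.2 ^ 3) := by
  obtain ⟨e, v, D, he, hD, rfl⟩ := hB.b2.dec k hk
  obtain ⟨k1, k2, h, p1, p2, s, h0, rfl⟩ := decP hB D hD
  have hl := hB.b1.prime_lam.ne_zero
  refine ⟨((e * lam ^ (v % 3), lam ^ (v / 3) * h), k1, k2), ?_,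
    mul_ne_zero he.ne_zero (pow_ne_zero _ hl), mul_ne_zero (pow_ne_zero _ hl) h0, p1, p2, s, ?_⟩
  · exact Finset.mem_image.2 ⟨(e, v % 3), Finset.mem_product.2
      ⟨(hB.b1.units e).1 he, Finset.mem_range.2 (Nat.mod_lt _ (by norm_num))⟩, rfl⟩
  · have e : lam ^ v = lam ^ (v % 3) * (lam ^ (v / 3)) ^ 3 := by
      rw [← pow_mul, ← pow_add]; congr 1; omega
    rw [e]; ring

theorem c23 {y : ℝ} (hy : 0 ≤ y) : (y ^ 3) ^ (2 / 3 : ℝ) = y ^ 2 := by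
  rw [← Real.rpow_natCast, ← Real.rpow_mul hy]; norm_num
theorem c43 {y : ℝ} (hy : 0 ≤ y) : (y ^ 3) ^ (4 / 3 : ℝ) = y ^ 4 := by
  rw [← Real.rpow_natCast, ← Real.rpow_mul hy]; norm_num
theorem c13 {y : ℝ} (hy : 0 ≤ y) : (y ^ 3) ^ (1 / 3 : ℝ) = y := by
  rw [← Real.rpow_natCast, ← Real.rpow_mul hy]; norm_num
theorem cn {y : ℝ} (hy : 0 ≤ y) : (y ^ 3) ^ (-(4 / 3) : ℝ) = (y ^ 4)⁻¹ := by
  rw [Real.rpow_neg (by positivity), c43 hy]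
theorem cube {x : ℝ} (hx : 1 ≤ x) : ∃ y : ℝ, 1 ≤ y ∧ x = y ^ 3 := by
  refine ⟨x ^ (1 / 3 : ℝ), Real.one_le_rpow hx (by norm_num), ?_⟩
  rw [← Real.rpow_natCast, ← Real.rpow_mul (by linarith)]; norm_num

theorem ps_le {l t s ν : ℝ} (hl : 1 ≤ l) (ht : 1 ≤ t) (hs : 1 ≤ s) (hν : 1 ≤ ν) :
    Ps l (t ^ 3 / ν ^ 2) (s ^ 3) ≤
      s ^ 3 + (t ^ 2 * s ^ 2 + 2 * l ^ (2 / 3 : ℝ) * t ^ 4) * ν ^ (-(4 / 3) : ℝ) := by
  obtain ⟨r, hr, rfl⟩ := cube hν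
  have hL : 1 ≤ l ^ (2 / 3 : ℝ) := Real.one_le_rpow hl (by norm_num)
  have r0 : 0 < r := by linarith
  have t0 : 0 < t := by linarith
  have s0 : 0 < s := by linarith
  have e1 : t ^ 3 / (r ^ 3) ^ 2 = (t / r ^ 2) ^ 3 := by field_simp
  have h1 : (min ((t / r ^ 2) ^ 3) (s ^ 3)) ^ (4 / 3 : ℝ) ≤ (t / r ^ 2) ^ 4 := by
    rw [← c43 (by positivity)]
    exact Real.rpow_le_rpow (by positivity) (min_le_left _ _) (by norm_num)
  have h2 : (t / r ^ 2) ^ 4 ≤ t ^ 4 * (r ^ 4)⁻¹ := by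
    rw [div_pow, ← div_eq_mul_inv, ← pow_mul]
    exact div_le_div_of_nonneg_left (by positivity) (by positivity)
      (pow_le_pow_right₀ hr (by norm_num))
  have h3 : (t / r ^ 2) ^ 3 ≤ t ^ 4 * (r ^ 4)⁻¹ := by
    rw [div_pow, ← div_eq_mul_inv, ← pow_mul]
    exact div_le_div₀ (by positivity) (pow_le_pow_right₀ ht (by norm_num)) (by positivity)
      (pow_le_pow_right₀ hr (by norm_num))
  have e2 : (t / r ^ 2 * s) ^ 2 = t ^ 2 * s ^ 2 * (r ^ 4)⁻¹ := by field_simp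
  rw [Ps, e1, cn r0.le, ← mul_pow, c23 (by positivity), e2]
  have h4 := mul_le_mul_of_nonneg_left (h1.trans h2) (by linarith : 0 ≤ l ^ (2 / 3 : ℝ))
  have h5 := mul_le_mul_of_nonneg_right hL (by positivity : 0 ≤ t ^ 4 * (r ^ 4)⁻¹)
  nlinarith

theorem tw (hB : Bas) {X : ℝ} {T : Finset O} (hT : ∀ n ∈ T, SP n ∧ N n ≤ X) (a : O → ℂ) (h u : O) :
    ∑ n ∈ T, a n * cub (h * u) n = ∑ n ∈ T, a n * cub u n * cub h n := by
  refine Finset.sum_congr rfl fun n hn => ?_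
  rw [hB.b6.mul_l h u n (hB.b2.cop n (hT n hn).1.1)]
  ring

theorem tw_le (hB : Bas) (T : Finset O) (a : O → ℂ) (u : O) :
    ∑ n ∈ T, ‖a n * cub u n‖ ^ 2 ≤ ∑ n ∈ T, ‖a n‖ ^ 2 := by
  refine Finset.sum_le_sum fun n _ => pow_le_pow_left₀ (norm_nonneg _) ?_ 2
  rw [norm_mul]
  exact mul_le_of_le_one_right (norm_nonneg _) (hB.b6.norm_le _ _)

/-- the zeta value -/
def Zt : ℝ := ∑' a : O, N a ^ (-(4 / 3) : ℝ)

theorem zt_le (hB : Bas) (H : Finset O) : ∑ h ∈ H, N h ^ (-(4 / 3) : ℝ) ≤ Zt :=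
  (hB.b3.summ (4 / 3) (by norm_num)).sum_le_tsum H fun a _ =>
    Real.rpow_nonneg (Nat.cast_nonneg _) _

theorem zt0 : 0 ≤ Zt := tsum_nonneg fun _ => Real.rpow_nonneg (Nat.cast_nonneg _) _

/-- sum of an affine function of the weight -/
theorem aff (hB : Bas) (H : Finset O) {R α β : ℝ} (hR : 0 ≤ R) (hα : 0 ≤ α) (hβ : 0 ≤ β)
    (hH : ∀ h ∈ H, h ≠ 0 ∧ N h ≤ R) :
    ∑ h ∈ H, (α + β * N h ^ (-(4 / 3) : ℝ)) ≤ 16 * R * α + β * Zt := by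
  rw [Finset.sum_add_distrib, ← Finset.mul_sum, Finset.sum_const, nsmul_eq_mul]
  exact add_le_add (mul_le_mul_of_nonneg_right (hB.b3.card_le R H hR hH) hα)
    (mul_le_mul_of_nonneg_left (zt_le hB H) hβ)

/-- pairs with small second coordinate -/
theorem small (hB : Bas) {l c t s : ℝ} (hl : 1 ≤ l) (hc : 1 ≤ c) (ht : 1 ≤ t) (hs : 1 ≤ s)
    (hL : ∀ M : ℝ, 0 < M → LB M (s ^ 3) (c * Ps l M (s ^ 3))) (S : Finset (O × O)) (T : Finset O)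
    (a : O → ℂ) (hS : ∀ x ∈ S, Prim x.1 ∧ Prim x.2 ∧ Squarefree (x.1 * x.2) ∧
      N x.1 * N x.2 ^ 2 ≤ t ^ 3 ∧ N x.2 ≤ t ^ 2 / s) (hT : ∀ n ∈ T, SP n ∧ N n ≤ s ^ 3) :
    ∑ x ∈ S, ‖∑ n ∈ T, a n * cub (x.1 * x.2 ^ 2) n‖ ^ 2 ≤
      c * ((16 + Zt) * (t ^ 2 * s ^ 2) + 2 * Zt * (l ^ (2 / 3 : ℝ) * t ^ 4)) * ∑ n ∈ T, ‖a n‖ ^ 2 := by
  have q0 : 0 ≤ ∑ n ∈ T, ‖a n‖ ^ 2 := by positivity
  have t0 : 0 < t := by linarith
  have s0 : 0 < s := by linarith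
  have c0 : 0 < c := by linarith
  have l0 : 0 < l := by linarith
  rw [← Finset.sum_fiberwise_of_maps_to (g := Prod.snd) (t := S.image Prod.snd)
    fun x hx => Finset.mem_image_of_mem _ hx]
  have h2 : ∀ m ∈ S.image Prod.snd,
      ∑ x ∈ S with x.2 = m, ‖∑ n ∈ T, a n * cub (x.1 * x.2 ^ 2) n‖ ^ 2 ≤
      c * s ^ 3 * (∑ n ∈ T, ‖a n‖ ^ 2) + c * (t ^ 2 * s ^ 2 + 2 * l ^ (2 / 3 : ℝ) * t ^ 4) *
        (∑ n ∈ T, ‖a n‖ ^ 2) * N m ^ (-(4 / 3) : ℝ) := by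
    intro m hm
    obtain ⟨x0, hx0, e0⟩ := Finset.mem_image.1 hm
    have m1 : 1 ≤ N m := hB.b1.N_one_le _ (hB.b2.ne _ (e0 ▸ (hS x0 hx0).2.1))
    have h3 := hL (t ^ 3 / N m ^ 2) (by positivity) ((S.filter fun x => x.2 = m).image Prod.fst) T
      (fun n => a n * cub (m ^ 2) n) (fun k hk => ?_) hT
    · rw [Finset.sum_image fun x hx y hy hxy =>
        Prod.ext hxy ((Finset.mem_filter.1 hx).2.trans (Finset.mem_filter.1 hy).2.symm)] at h3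
      have h4 := ps_le hl ht hs m1
      have p0 : 0 ≤ Ps l (t ^ 3 / N m ^ 2) (s ^ 3) := by unfold Ps; positivity
      refine (le_of_eq (Finset.sum_congr rfl fun x hx => ?_)).trans (h3.trans ?_)
      · rw [tw hB hT, (Finset.mem_filter.1 hx).2]
      · refine (mul_le_mul (mul_le_mul_of_nonneg_left h4 c0.le) (tw_le hB T a _) (by positivity)
          (mul_nonneg c0.le (p0.trans h4))).trans (le_of_eq ?_)
        ring
    · obtain ⟨x, hx, rfl⟩ := Finset.mem_image.1 hk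
      obtain ⟨hx1, rfl⟩ := Finset.mem_filter.1 hx
      have := hS x hx1
      refine ⟨⟨this.1, this.2.2.1.squarefree_of_dvd (dvd_mul_right _ _)⟩, ?_⟩
      rw [le_div_iff₀ (by positivity)]
      exact this.2.2.2.1
  refine (Finset.sum_le_sum h2).trans ((aff hB _ (R := t ^ 2 / s) (by positivity) (by positivity)
    (by positivity) fun m hm => ?_).trans (le_of_eq ?_))
  · obtain ⟨x, hx, rfl⟩ := Finset.mem_image.1 hm
    exact ⟨hB.b2.ne _ (hS x hx).2.1, (hS x hx).2.2.2.2⟩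
  · field_simp
    ring

end L4M

end Vale.Agent.P006
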