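import Vale.Agent.P006.SL
import Vale.Agent.P026.M.W1

/-! Helper facts for the weighted large sieve steps. -/

noncomputable section
open Complex
open scoped Classical ComplexConjugate

namespace Vale.Agent.P006.H16
open Vale.Agent.P026 W1

theorem mSQ {X : ℝ} {n : O} : n ∈ SQ X ↔ SP n ∧ N n ≤ X := (memS bas).1 X n

theorem mdv {g d : O} (hg : g ≠ 0) : d ∈ dv g ↔ Prim d ∧ d ∣ g := (memS bas).2 g d hg

theorem N1 {n : O} (h : Prim n) : 1 ≤ N n := bas.b1.N_one_le n (bas.b2.ne n h)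

theorem N0 (n : O) : 0 ≤ N n := Nat.cast_nonneg _

theorem N_one : N 1 = 1 := by
  have h := bas.b1.N_pow 1 0
  simpa using h

theorem N_dvd {d n : O} (hn : n ≠ 0) (h : d ∣ n) : N d ≤ N n := by
  obtain ⟨e, rfl⟩ := h
  have := bas.b1.N_one_le e (right_ne_zero_of_mul hn)
  rw [bas.b1.N_mul]
  nlinarith [N0 d]

theorem swap {R : Type} [AddCommMonoid R] (Y : ℝ) (T : Finset O)
    (hT : ∀ n ∈ T, SP n ∧ N n ≤ Y) (F : O → O → R) :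
    ∑ n ∈ T, ∑ d ∈ dv n, F d n =
      ∑ d ∈ SQ Y, ∑ k ∈ (SQ Y).filter (fun k => d * k ∈ T), F d (d * k) := by
  rw [Finset.sum_sigma', Finset.sum_sigma']
  symm
  refine Finset.sum_bij (fun x _ => (⟨x.1 * x.2, x.1⟩ : Σ _ : O, O)) ?_ ?_ ?_ ?_
  · rintro ⟨d, k⟩ hx
    simp only [Finset.mem_sigma, Finset.mem_filter] at hx ⊢
    refine ⟨hx.2.2, (mdv (bas.b2.ne _ (hT _ hx.2.2).1.1)).2 ⟨(mSQ.1 hx.1).1.1, dvd_mul_right _ _⟩⟩
  · rintro ⟨d, k⟩ hx ⟨d', k'⟩ _ h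
    simp only [Finset.mem_sigma, Finset.mem_filter] at hx
    simp only [Sigma.mk.injEq, heq_eq_eq] at h
    obtain ⟨h1, rfl⟩ := h
    have := mul_left_cancel₀ (bas.b2.ne _ (mSQ.1 hx.1).1.1) h1
    subst this
    rfl
  · rintro ⟨n, d⟩ hx
    simp only [Finset.mem_sigma] at hx
    obtain ⟨hn, hd⟩ := hx
    have hs := hT n hn
    have n0 := bas.b2.ne _ hs.1.1
    obtain ⟨hp, k, rfl⟩ := (mdv n0).1 hd
    refine ⟨⟨d, k⟩, ?_, rfl⟩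
    simp only [Finset.mem_sigma, Finset.mem_filter]
    refine ⟨mSQ.2 ⟨⟨hp, hs.1.2.of_mul_left⟩, (N_dvd n0 (dvd_mul_right _ _)).trans hs.2⟩,
      mSQ.2 ⟨⟨bas.b2.cancel _ _ hp hs.1.1, hs.1.2.of_mul_right⟩,
        (N_dvd n0 (dvd_mul_left _ _)).trans hs.2⟩, hn⟩
  · rintro ⟨d, k⟩ _
    rfl

theorem cube {x : ℝ} (hx : 0 < x) : ∃ t : ℝ, 0 < t ∧ x = t ^ 3 :=
  ⟨x ^ (1 / 3 : ℝ), Real.rpow_pos_of_pos hx _, by
    rw [← Real.rpow_natCast, ← Real.rpow_mul hx.le]; norm_num⟩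

theorem p3 {x : ℝ} (hx : 0 < x) (r : ℝ) : (x ^ 3) ^ r = x ^ (3 * r) := by
  rw [← Real.rpow_natCast, ← Real.rpow_mul hx.le]; norm_num

theorem p13 {x : ℝ} (hx : 0 < x) : (x ^ 3) ^ (1 / 3 : ℝ) = x := by
  rw [p3 hx]; norm_num

theorem p23 {x : ℝ} (hx : 0 < x) : (x ^ 3) ^ (2 / 3 : ℝ) = x ^ 2 := by
  rw [p3 hx]; norm_num

theorem p43 {x : ℝ} (hx : 0 < x) : (x ^ 3) ^ (4 / 3 : ℝ) = x ^ 4 := by
  rw [p3 hx, ← Real.rpow_natCast]; norm_num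

theorem m13 {x : ℝ} (hx : 0 < x) : (x ^ 3) ^ (-1 / 3 : ℝ) = x⁻¹ := by
  rw [p3 hx, ← Real.rpow_neg_one]; norm_num

theorem m23 {x : ℝ} (hx : 0 < x) : (x ^ 3) ^ (-2 / 3 : ℝ) = (x ^ 2)⁻¹ := by
  rw [p3 hx, ← Real.rpow_natCast, ← Real.rpow_neg hx.le]; norm_num

theorem m43 {x : ℝ} (hx : 0 < x) : (x ^ 3) ^ (-(4 / 3) : ℝ) = (x ^ 4)⁻¹ := by
  rw [p3 hx, ← Real.rpow_natCast, ← Real.rpow_neg hx.le]; norm_num

theorem hw_pos {D : ℝ} (hD : 0 < D) {e : O} (he : Prim e) : 0 < hw D e := by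
  have := N1 he
  unfold hw
  have h1 : 0 < N e := by linarith
  exact mul_pos (Real.rpow_pos_of_pos h1 _) (lt_min one_pos (div_pos hD h1))

theorem hw_mono {D D' : ℝ} (h : D ≤ D') (e : O) : hw D e ≤ hw D' e := by
  unfold hw
  exact mul_le_mul_of_nonneg_left (min_le_min_left _ (div_le_div_of_nonneg_right h (N0 e)))
    (Real.rpow_nonneg (N0 e) _)

theorem rho_mono {D D' : ℝ} (h : D ≤ D') (n : O) : rho D n ≤ rho D' n :=
  Finset.sum_le_sum fun e _ => hw_mono h e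

theorem rho_dvd {D : ℝ} (hD : 0 < D) {k n : O} (hn : n ≠ 0) (h : k ∣ n) : rho D k ≤ rho D n := by
  have hk : k ≠ 0 := by rintro rfl; exact hn (zero_dvd_iff.1 h)
  refine Finset.sum_le_sum_of_subset_of_nonneg (fun e he => ?_) fun e he _ => ?_
  · rw [mdv hk] at he
    exact (mdv hn).2 ⟨he.1, he.2.trans h⟩
  · exact (hw_pos hD ((mdv hn).1 he).1).le

theorem one_le_rho {D : ℝ} (hD : 1 ≤ D) {n : O} (hn : n ≠ 0) : 1 ≤ rho D n := by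
  have h1 : hw D 1 = 1 := by
    simp [hw, N_one, hD]
  rw [← h1]
  exact Finset.single_le_sum (f := hw D) (fun e he => (hw_pos (by linarith) ((mdv hn).1 he).1).le)
    ((mdv hn).2 ⟨bas.b2.one, one_dvd _⟩)

theorem rho_nonneg {D : ℝ} (hD : 0 < D) {n : O} (hn : n ≠ 0) : 0 ≤ rho D n :=
  Finset.sum_nonneg fun _ he => (hw_pos hD ((mdv hn).1 he).1).le

end Vale.Agent.P006.H16
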