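import Vale.Agent.P006.SL
import Vale.Agent.P006.Poi3
import Vale.Agent.P026.M.GPO

/-! P006 row L1: both kernels in terms of the coprime kernel. -/

noncomputable section
open Complex
open scoped Classical ComplexConjugate

namespace Vale.Agent.P006
open Vale.Agent.P026

namespace L1M

theorem sieve (hB : Bas) {g : O} (hg : Prim g) (F : O → ℂ) (hF : Summable F) :
    ∑' m, (if IsCoprime g m then 1 else 0) * F m = ∑ e ∈ dv g, mu e * ∑' m, F (e * m) := by
  have hd := fun d => (memS hB).2 g d (hB.b2.ne _ hg)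
  have e1 : ∀ m, (if IsCoprime g m then (1 : ℂ) else 0) * F m =
      ∑ e ∈ dv g, if e ∣ m then mu e * F m else 0 := fun m => by
    rw [← Poi3.mob2 hB m hg (dv g) (fun d h => ((hd d).1 h).1) (fun d h h' => (hd d).2 ⟨h, h'⟩),
      Finset.sum_mul]
    refine Finset.sum_congr rfl fun e he => ?_
    simp only [((hd e).1 he).2, true_and, ite_mul, zero_mul]
  have s1 : ∀ e, Summable fun m => if e ∣ m then mu e * F m else 0 := fun e => by
    refine Summable.of_norm_bounded (hF.mul_left (mu e)).norm fun m => ?_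
    split_ifs
    · exact le_rfl
    · simp only [norm_zero]; exact norm_nonneg _
  simp only [e1]
  rw [Summable.tsum_finsetSum fun e _ => s1 e]
  refine Finset.sum_congr rfl fun e he => ?_
  have he0 : e ≠ 0 := hB.b2.ne _ ((hd e).1 he).1
  rw [← (mul_right_injective₀ he0).tsum_eq, ← tsum_mul_left]
  · simp only [dvd_mul_right, if_true]
  · intro m hm
    by_contra h
    refine hm (if_neg ?_)
    rintro ⟨c, rfl⟩
    exact h ⟨c, rfl⟩

theorem cub_ind (hB : Bas) {g : O} (hg : Prim g) (m : O) :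
    cub m g * conj (cub m g) = if IsCoprime g m then 1 else 0 := by
  split_ifs with h
  · rw [mul_conj, normSq_eq_norm_sq, hB.b6.norm _ _ h.symm]; simp
  · rw [hB.b6.zero _ _ (hB.b2.ne _ hg) fun h' => h h'.symm, zero_mul]

theorem Npos (hB : Bas) {e : O} (he : Prim e) : 0 < N e :=
  one_pos.trans_le (hB.b1.N_one_le e (hB.b2.ne _ he))

theorem cops {g k1 k2 : O} (h : Squarefree (g * k1 * k2)) :
    Squarefree g ∧ Squarefree k1 ∧ Squarefree k2 ∧ IsCoprime g k1 ∧ IsCoprime g k2 ∧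
      IsCoprime k1 k2 := by
  obtain ⟨h1, h2, h3⟩ := squarefree_mul_iff.1 h
  obtain ⟨h4, h5, h6⟩ := squarefree_mul_iff.1 h2
  have h7 := h1.isCoprime
  exact ⟨h5, h6, h3, h4.isCoprime, h7.of_mul_left_left, h7.of_mul_left_right⟩

theorem kt (hB : Bas) : KTStmt := by
  intro M g k1 k2 hM hg h1 h2 _
  have g0 := hB.b2.ne _ hg
  have hF : Summable fun m : O => cub m k1 * conj (cub m k2) * cexp (-(N m / M : ℝ)) := by
    refine Summable.of_norm_bounded (GPOM.gsum hB hM) fun m => ?_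
    rw [norm_mul, norm_mul, RCLike.norm_conj]
    exact mul_le_of_le_one_left (norm_nonneg _)
      (mul_le_one₀ (hB.b6.norm_le _ _) (norm_nonneg _) (hB.b6.norm_le _ _))
  have e1 : ∀ m, cub m (g * k1) * conj (cub m (g * k2)) * cexp (-(N m / M : ℝ)) =
      (if IsCoprime g m then 1 else 0) * (cub m k1 * conj (cub m k2) * cexp (-(N m / M : ℝ))) := by
    intro m
    rw [hB.b6.mul_r _ _ _ g0 (hB.b2.ne _ h1), hB.b6.mul_r _ _ _ g0 (hB.b2.ne _ h2),
      ← cub_ind hB hg, map_mul]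
    ring
  unfold Tk
  simp only [e1]
  rw [sieve hB hg _ hF]
  refine Finset.sum_congr rfl fun e he => ?_
  have pe := (((memS hB).2 g e g0).1 he).1
  have ne := (Npos hB pe).ne'
  rw [mul_assoc]
  congr 1
  rw [← tsum_mul_left]
  refine tsum_congr fun m => ?_
  have : N (e * m) / M = N m / (M / N e) := by
    rw [hB.b1.N_mul]; field_simp
  rw [this, hB.b6.mul_l _ _ _ (hB.b2.cop _ h1), hB.b6.mul_l _ _ _ (hB.b2.cop _ h2), map_mul]
  ring

theorem kp (hB : Bas) (hC : CRStmt) (hH : HD) (hG : GPOStmt) : KPStmt := by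
  intro M g k1 k2 hM hg h1 h2 hs
  obtain ⟨sg0, s1, s2, c1, c2, c12⟩ := cops hs
  have g0 := hB.b2.ne _ hg
  have n1 := Npos hB h1
  have n2 := Npos hB h2
  have ng := Npos hB hg
  have sgp : 0 < sg := by unfold sg; have := Real.pi_pos; positivity
  have hgs : gs g * conj (gs g) = (N g : ℂ) := by
    rw [mul_conj, normSq_eq_norm_sq, hH.n3 g (hB.b2.cop _ hg) sg0]
  set M0 : ℝ := N (g * k1) * N (g * k2) / (sg * M) with hM0
  have nn1 : N (g * k1) = N g * N k1 := hB.b1.N_mul _ _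
  have nn2 : N (g * k2) = N g * N k2 := hB.b1.N_mul _ _
  have hM0p : 0 < M0 := by rw [hM0, nn1, nn2]; positivity
  have ex : ∀ h : O, sg * M * N h / (N (g * k1) * N (g * k2)) = N h / M0 := fun h => by
    rw [hM0, nn1, nn2]; field_simp
  have hF : Summable fun h : O =>
      conj (cub h k1 * gs k1) * (cub h k2 * gs k2) * cexp (-(N h / M0 : ℝ)) := by
    refine Summable.of_norm_bounded ((GPOM.gsum hB hM0p).mul_left (‖gs k1‖ * ‖gs k2‖)) fun m => ?_
    rw [norm_mul, norm_mul, RCLike.norm_conj, norm_mul, norm_mul]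
    refine mul_le_mul_of_nonneg_right (mul_le_mul ?_ ?_ (by positivity) (norm_nonneg _))
      (norm_nonneg _)
    · exact mul_le_of_le_one_left (norm_nonneg _) (hB.b6.norm_le _ _)
    · exact mul_le_of_le_one_left (norm_nonneg _) (hB.b6.norm_le _ _)
  have e1 : ∀ h, conj (cub h (g * k1) * gs (g * k1)) * (cub h (g * k2) * gs (g * k2)) *
      cexp (-(sg * M * N h / (N (g * k1) * N (g * k2)) : ℝ)) =
      ((N g : ℂ) * (conj (cub g k1) * cub g k2)) * ((if IsCoprime g h then 1 else 0) *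
        (conj (cub h k1 * gs k1) * (cub h k2 * gs k2) * cexp (-(N h / M0 : ℝ)))) := by
    intro h
    rw [ex, hB.b6.mul_r _ _ _ g0 (hB.b2.ne _ h1), hB.b6.mul_r _ _ _ g0 (hB.b2.ne _ h2),
      ← cub_ind hB hg, hH.mul3 _ _ hg h1 c1, hH.mul3 _ _ hg h2 c2, ← hgs]
    simp only [map_mul]
    ring
  unfold Pk
  simp only [e1]
  rw [tsum_mul_left, sieve hB hg _ hF, ← mul_assoc, Finset.mul_sum]
  refine Finset.sum_congr rfl fun e he => ?_
  obtain ⟨pe, f, rfl⟩ := ((memS hB).2 g e g0).1 he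
  have pf := hB.b2.cancel _ _ pe hg
  have e0 := hB.b2.ne _ pe
  have ne := Npos hB pe
  have nf := Npos hB pf
  have hf : f ∈ dv (e * f) := ((memS hB).2 _ f g0).2 ⟨pf, dvd_mul_left _ _⟩
  rw [Finset.sum_eq_single_of_mem f hf fun f' _ hne => if_neg fun h =>
    hne (mul_left_cancel₀ e0 h), if_pos rfl]
  have hM' : 0 < M / (N e * N f ^ 2) := by positivity
  have P := Poi3.poi hB hC hH hG h1 h2 s1 s2 c12 hM'
  have nef : N (e * f) = N e * N f := hB.b1.N_mul _ _
  have n12 : N (k1 * k2) = N k1 * N k2 := hB.b1.N_mul _ _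
  have e2 : ∀ m, conj (cub (e * m) k1 * gs k1) * (cub (e * m) k2 * gs k2) *
      cexp (-(N (e * m) / M0 : ℝ)) = (conj (cub e k1) * cub e k2) *
      (conj (cub m k1 * gs k1) * (cub m k2 * gs k2) *
        cexp (-(sg * (M / (N e * N f ^ 2)) * N m / N (k1 * k2) : ℝ))) := fun m => by
    have : N (e * m) / M0 = sg * (M / (N e * N f ^ 2)) * N m / N (k1 * k2) := by
      rw [hM0, nn1, nn2, nef, n12, hB.b1.N_mul]; field_simp
    rw [this, hB.b6.mul_l _ _ _ (hB.b2.cop _ h1), hB.b6.mul_l _ _ _ (hB.b2.cop _ h2)]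
    simp only [map_mul]
    ring
  simp only [e2]
  rw [tsum_mul_left]
  unfold Tk
  rw [P]
  generalize (∑' h : O, conj (cub h k1 * gs k1) * (cub h k2 * gs k2) *
    cexp (-(sg * (M / (N e * N f ^ 2)) * N h / N (k1 * k2) : ℝ))) = S
  have a1 := hB.b6.cube _ _ c1.of_mul_left_left
  have b2 := hB.b6.cube _ _ c2.of_mul_left_right
  have key : conj (cub (e * f) k1) * cub (e * f) k2 * (conj (cub e k1) * cub e k2) =
      cub (e * f ^ 2) k1 * conj (cub (e * f ^ 2) k2) := by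
    simp only [hB.b6.conj_eq]
    simp only [hB.b6.mul_l _ _ _ (hB.b2.cop _ h1),
      hB.b6.mul_l _ _ _ (hB.b2.cop _ h2), hB.b6.pow_l _ _ _ (hB.b2.cop _ h1),
      hB.b6.pow_l _ _ _ (hB.b2.cop _ h2)]
    linear_combination (cub e k1 * cub f k1 ^ 2 * cub e k2 ^ 2 * cub f k2) * a1 -
      (cub e k1 * cub f k1 ^ 2 * cub e k2 ^ 2 * cub f k2) * b2
  rw [← key, nn1, nn2, nef, n12]
  have k0 := Poi3.kap_ne
  have z1 : (N k1 : ℂ) ≠ 0 := by exact_mod_cast n1.ne'
  have z2 : (N k2 : ℂ) ≠ 0 := by exact_mod_cast n2.ne'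
  have z3 : (N e : ℂ) ≠ 0 := by exact_mod_cast ne.ne'
  have z4 : (N f : ℂ) ≠ 0 := by exact_mod_cast nf.ne'
  push_cast
  field_simp

end L1M

end Vale.Agent.P006
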